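import Mathlib

/-!
A verified exhaustive checker: a vector of item counts cannot be packed into `k` bins.
-/

namespace Vale.Agent.Lib.P302.Checker

/-- dot product of lists -/
def dot : List ℕ → List ℕ → ℕ
  | x :: xs, y :: ys => x * y + dot xs ys
  | _, _ => 0

/-- pointwise sum -/
def addV : List ℕ → List ℕ → List ℕ := List.zipWith (· + ·)

/-- pointwise truncated difference -/
def subV : List ℕ → List ℕ → List ℕ := List.zipWith (· - ·)

/-- All `a ≤ r` (pointwise) with `need ≤ dot l a ≤ cap`. -/
def subs : List ℕ → List ℕ → ℕ → ℕ → List (List ℕ)
  | [], [], _, need => if need = 0 then [[]] else []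
  | x :: xs, y :: ys, cap, need =>
      (List.range (min y (cap / x) + 1)).flatMap fun c =>
        if need ≤ c * x + dot xs ys then
          (subs xs ys (cap - c * x) (need - c * x)).map (c :: ·)
        else []
  | _, _, _, _ => []

/-- `a` is nonzero at the first position where `r` is nonzero. -/
def hitsFirst : List ℕ → List ℕ → Bool
  | a :: as, 0 :: rs => (a == 0) && hitsFirst as rs
  | a :: _, (_ + 1) :: _ => a != 0
  | _, _ => false

/-- Exhaustive search for a packing of the item counts `r` into `k` bins of capacity `L`. -/
def check (l : List ℕ) (L : ℕ) : ℕ → List ℕ → Bool
  | 0, r => r.all (· == 0)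
  | k + 1, r =>
      r.all (· == 0) ||
        (decide (dot l r ≤ (k + 1) * L) &&
          ((subs l r L (dot l r - k * L)).filter (fun a => hitsFirst a r)).any
            (fun a => check l L k (subV r a)))

/-- `r` is the sum of `k` bin vectors. -/
def Packable (l : List ℕ) (L k : ℕ) (r : List ℕ) : Prop :=
  ∃ bins : List (List ℕ), bins.length = k ∧
    (∀ a ∈ bins, a.length = l.length ∧ dot l a ≤ L) ∧
    bins.foldr addV (List.replicate l.length 0) = r

theorem addV_left_comm (a b c : List ℕ) : addV a (addV b c) = addV b (addV a c) := by
  induction a generalizing b c with
  | nil => cases b <;> simp [addV]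
  | cons x xs ih =>
    cases b with
    | nil => simp [addV]
    | cons y ys =>
      cases c with
      | nil => simp [addV]
      | cons z zs =>
        have h := ih ys zs
        simp only [addV] at h
        simp only [addV, List.zipWith_cons_cons, h]
        congr 1
        omega

instance : LeftCommutative addV := ⟨addV_left_comm⟩

theorem length_addV {a b : List ℕ} (h : a.length = b.length) : (addV a b).length = a.length := by
  simp [addV, h]

theorem length_foldr {n : ℕ} {bins : List (List ℕ)} (h : ∀ a ∈ bins, a.length = n) :
    (bins.foldr addV (List.replicate n 0)).length = n := by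
  induction bins with
  | nil => simp
  | cons a as ih =>
    have h1 : a.length = n := h a (by simp)
    have h2 := ih (fun b hb => h b (by simp [hb]))
    simp only [List.foldr_cons]
    rw [length_addV (by rw [h1, h2]), h1]

theorem dot_addV (l a b : List ℕ) (h1 : a.length = l.length) (h2 : b.length = l.length) :
    dot l (addV a b) = dot l a + dot l b := by
  induction l generalizing a b with
  | nil =>
    cases a <;> cases b <;> simp_all [dot]
  | cons x xs ih =>
    cases a with
    | nil => simp at h1
    | cons y ys =>
      cases b with
      | nil => simp at h2
      | cons z zs =>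
        simp only [List.length_cons, add_left_inj] at h1 h2
        have := ih ys zs h1 h2
        simp only [addV, List.zipWith_cons_cons, dot] at this ⊢
        rw [this]; ring

theorem dot_replicate (l : List ℕ) (n : ℕ) : dot l (List.replicate n 0) = 0 := by
  induction l generalizing n with
  | nil => cases n <;> simp [dot]
  | cons x xs ih =>
    cases n with
    | zero => simp [dot]
    | succ m => simp [dot, List.replicate_succ, ih]

theorem subV_addV (a b : List ℕ) (h : a.length = b.length) : subV (addV a b) a = b := by
  induction a generalizing b with
  | nil => cases b <;> simp_all [addV, subV]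
  | cons x xs ih =>
    cases b with
    | nil => simp at h
    | cons y ys =>
      simp only [List.length_cons, add_left_inj] at h
      have := ih ys h
      simp only [addV, subV, List.zipWith_cons_cons] at this ⊢
      simp only [add_tsub_cancel_left, this]

/-- `a ≤ r` pointwise (same lengths). -/
def LeV (a r : List ℕ) : Prop := List.Forall₂ (· ≤ ·) a r

theorem leV_addV (a b : List ℕ) (h : a.length = b.length) : LeV a (addV a b) := by
  induction a generalizing b with
  | nil => cases b <;> simp_all [addV, LeV]
  | cons x xs ih =>
    cases b with
    | nil => simp at h
    | cons y ys =>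
      simp only [List.length_cons, add_left_inj] at h
      simp only [addV, List.zipWith_cons_cons, LeV]
      refine List.Forall₂.cons (by omega) (ih ys h)

theorem dot_mono (l : List ℕ) {a r : List ℕ} (h : LeV a r) : dot l a ≤ dot l r := by
  induction l generalizing a r with
  | nil => cases a <;> cases r <;> simp [dot]
  | cons x xs ih =>
    cases h with
    | nil => simp [dot]
    | cons h1 h2 =>
      simp only [dot]
      exact add_le_add (Nat.mul_le_mul_left _ h1) (ih h2)

theorem mem_subs (l : List ℕ) (hpos : ∀ x ∈ l, 0 < x) {a r : List ℕ} (hlen : r.length = l.length)
    (h : LeV a r) (cap need : ℕ) (hcap : dot l a ≤ cap) (hneed : need ≤ dot l a) : a ∈ subs l r cap need := by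
  induction l generalizing a r cap need with
  | nil =>
    have hr : r = [] := List.length_eq_zero_iff.mp hlen
    subst hr
    cases h
    simp only [dot] at hneed
    simp [subs, Nat.le_zero.mp hneed]
  | cons x xs ih =>
    cases h with
    | nil => simp at hlen
    | cons h1 h2 =>
      rename_i c y as ys
      simp only [List.length_cons, add_left_inj] at hlen
      simp only [dot] at hcap hneed
      simp only [subs, List.mem_flatMap, List.mem_range]
      refine ⟨c, ?_, ?_⟩
      · have hx : 0 < x := hpos x (by simp)
        have hc : c ≤ cap / x := by
          rw [Nat.le_div_iff_mul_le hx]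
          calc c * x = x * c := by ring
            _ ≤ cap := by omega
        omega
      · have h3 : dot xs as ≤ dot xs ys := dot_mono xs h2
        have h4 : need ≤ c * x + dot xs ys := by
          have : x * c = c * x := by ring
          omega
        rw [if_pos h4]
        refine List.mem_map.mpr ⟨as, ih (fun z hz => hpos z (by simp [hz])) hlen h2 _ _ ?_ ?_, rfl⟩
        · have : x * c = c * x := by ring
          omega
        · have : x * c = c * x := by ring
          omega

/-- if the sum of the bins is not all zero, one of the bins hits the first nonzero position. -/
theorem exists_hitsFirst (n : ℕ) (bins : List (List ℕ)) (hlen : ∀ a ∈ bins, a.length = n)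
    (hr : ¬ (bins.foldr addV (List.replicate n 0)).all (· == 0) = true) :
    ∃ a ∈ bins, hitsFirst a (bins.foldr addV (List.replicate n 0)) = true := by
  induction n generalizing bins with
  | zero =>
    exfalso
    apply hr
    have := length_foldr hlen
    rw [List.length_eq_zero_iff.mp this]
    rfl
  | succ n ih =>
    -- structure of the bins as heads and tails
    have key : ∀ (bs : List (List ℕ)), (∀ a ∈ bs, a.length = n + 1) →
        ∃ (h : ℕ) (t : List ℕ), bs.foldr addV (List.replicate (n + 1) 0) = h :: t ∧
          h = (bs.map (fun a => a.headD 0)).sum ∧
          t = (bs.map (fun a => a.tail)).foldr addV (List.replicate n 0) := by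
      intro bs hbs
      induction bs with
      | nil => exact ⟨0, List.replicate n 0, by simp [List.replicate_succ], by simp, by simp⟩
      | cons a as iha =>
        obtain ⟨h, t, h1, h2, h3⟩ := iha (fun b hb => hbs b (by simp [hb]))
        have hal : a.length = n + 1 := hbs a (by simp)
        cases a with
        | nil => simp at hal
        | cons x xs =>
          refine ⟨x + h, addV xs t, ?_, ?_, ?_⟩
          · show addV (x :: xs) (List.foldr addV _ as) = _
            rw [h1]; simp [addV]
          · simp [h2]
          · simp [h3]
    obtain ⟨h, t, h1, h2, h3⟩ := key bins hlen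
    rw [h1] at hr ⊢
    cases h with
    | zero =>
      have hall : ∀ a ∈ bins, a.headD 0 = 0 := by
        intro a ha
        have : a.headD 0 ∈ bins.map (fun a => a.headD 0) := List.mem_map.mpr ⟨a, ha, rfl⟩
        exact (List.sum_eq_zero_iff.mp h2.symm) _ this
      have hr' : ¬ ((bins.map (fun a => a.tail)).foldr addV (List.replicate n 0)).all (· == 0) = true := by
        rw [← h3]
        simpa using hr
      obtain ⟨a', ha', hit⟩ := ih (bins.map (fun a => a.tail))
        (by
          intro a ha
          obtain ⟨b, hb, rfl⟩ := List.mem_map.mp ha
          simp [hlen b hb]) hr'
      obtain ⟨b, hb, rfl⟩ := List.mem_map.mp ha'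
      refine ⟨b, hb, ?_⟩
      have hbl : b.length = n + 1 := hlen b hb
      cases b with
      | nil => simp at hbl
      | cons x xs =>
        have hx : x = 0 := by simpa using hall _ hb
        rw [← h3] at hit
        simp only [List.tail_cons] at hit
        simp [hitsFirst, hx, hit]
    | succ m =>
      have : ∃ a ∈ bins, a.headD 0 ≠ 0 := by
        by_contra hcon
        push Not at hcon
        have : (bins.map (fun a => a.headD 0)).sum = 0 := by
          apply List.sum_eq_zero
          intro y hy
          obtain ⟨b, hb, rfl⟩ := List.mem_map.mp hy
          exact hcon b hb
        omega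
      obtain ⟨a, ha, hne⟩ := this
      refine ⟨a, ha, ?_⟩
      have hal : a.length = n + 1 := hlen a ha
      cases a with
      | nil => simp at hal
      | cons x xs =>
        have : x ≠ 0 := by simpa using hne
        simp [hitsFirst, this]

/-- Soundness of the search: if a packing exists then `check` returns `true`. -/
theorem check_of_packable (l : List ℕ) (L : ℕ) (hpos : ∀ x ∈ l, 0 < x) (k : ℕ) (r : List ℕ)
    (h : Packable l L k r) : check l L k r = true := by
  induction k generalizing r with
  | zero =>
    obtain ⟨bins, hk, _, hr⟩ := h
    have : bins = [] := List.length_eq_zero_iff.mp hk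
    subst this
    simp only [List.foldr_nil] at hr
    subst hr
    simp [check]
  | succ k ih =>
    obtain ⟨bins, hk, hb, hr⟩ := h
    by_cases hz : r.all (· == 0) = true
    · simp [check, hz]
    · have hlen : ∀ a ∈ bins, a.length = l.length := fun a ha => (hb a ha).1
      have hrlen : r.length = l.length := by rw [← hr]; exact length_foldr hlen
      have hdot : ∀ (bs : List (List ℕ)), (∀ a ∈ bs, a.length = l.length ∧ dot l a ≤ L) →
          dot l (bs.foldr addV (List.replicate l.length 0)) ≤ bs.length * L := by
        intro bs hbs
        induction bs with
        | nil => simp [dot_replicate]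
        | cons a as iha =>
          simp only [List.foldr_cons, List.length_cons]
          have h1 := hbs a (by simp)
          have h2 := iha (fun b hb' => hbs b (by simp [hb']))
          rw [dot_addV l a _ h1.1 (length_foldr (fun b hb' => (hbs b (by simp [hb'])).1))]
          nlinarith [h1.2]
      have hd : dot l r ≤ (k + 1) * L := by
        have := hdot bins hb
        rw [hk, hr] at this
        exact this
      obtain ⟨a, ha, hit⟩ := exists_hitsFirst l.length bins hlen (by rw [hr]; exact hz)
      rw [hr] at hit
      -- remove the bin `a`
      have hperm : bins.Perm (a :: bins.erase a) := List.perm_cons_erase ha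
      have hfold : bins.foldr addV (List.replicate l.length 0) =
          addV a ((bins.erase a).foldr addV (List.replicate l.length 0)) := by
        have := hperm.foldr_eq (f := addV) (List.replicate l.length 0)
        simpa using this
      have hrest : ∀ b ∈ bins.erase a, b.length = l.length ∧ dot l b ≤ L :=
        fun b hb' => hb b (List.mem_of_mem_erase hb')
      have hrl : ((bins.erase a).foldr addV (List.replicate l.length 0)).length = l.length :=
        length_foldr (fun b hb' => (hrest b hb').1)
      have hal : a.length = l.length := hlen a ha
      have hsub : subV r a = (bins.erase a).foldr addV (List.replicate l.length 0) := by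
        rw [← hr, hfold]
        exact subV_addV _ _ (by rw [hal, hrl])
      have hpack : Packable l L k (subV r a) := by
        refine ⟨bins.erase a, ?_, hrest, hsub.symm⟩
        rw [List.length_erase_of_mem ha, hk]; rfl
      have hle : LeV a r := by
        rw [← hr, hfold]
        exact leV_addV _ _ (by rw [hal, hrl])
      have hneed : dot l r - k * L ≤ dot l a := by
        have h1 : dot l r = dot l a + dot l ((bins.erase a).foldr addV (List.replicate l.length 0)) := by
          rw [← hr, hfold]
          exact dot_addV l _ _ hal hrl
        have h2 := hdot (bins.erase a) hrest
        rw [List.length_erase_of_mem ha, hk] at h2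
        simp only [Nat.add_sub_cancel] at h2
        omega
      have hmem : a ∈ subs l r L (dot l r - k * L) :=
        mem_subs l hpos hrlen hle _ _ (hb a ha).2 hneed
      have hany : ((subs l r L (dot l r - k * L)).filter (fun a => hitsFirst a r)).any
            (fun a => check l L k (subV r a)) = true := by
        rw [List.any_eq_true]
        exact ⟨a, List.mem_filter.mpr ⟨hmem, hit⟩, ih _ hpack⟩
      simp [check, hd, hany]

end Vale.Agent.Lib.P302.Checker
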