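import Mathlib

/-!
Definitions for bin packing and the Gilmore-Gomory configuration LP, as in the problem file of P302.
-/

namespace Vale.Agent.Lib.P302

/-- The set of distinct item sizes occurring in the instance `I`. -/
def sizeSet (I : List ℚ) : Finset ℚ := I.toFinset

/-- A configuration of `I`: a vector of nonnegative integers indexed by the distinct sizes of `I`,
of total size at most `1`. A size may occur more often than its multiplicity in `I`. -/
def IsConfiguration (I : List ℚ) (c : sizeSet I → ℕ) : Prop :=
  ∑ σ : sizeSet I, (σ : ℚ) * (c σ : ℚ) ≤ 1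

/-- `z` is a feasible point of the Gilmore-Gomory LP of `I`: nonnegative weights on finitely many
configurations such that each size `σ` is covered at least as often as its multiplicity in `I`. -/
def IsLPFeasible (I : List ℚ) (z : (sizeSet I → ℕ) →₀ ℝ) : Prop :=
  (∀ c, 0 ≤ z c) ∧ (∀ c, z c ≠ 0 → IsConfiguration I c) ∧
    ∀ σ : sizeSet I, ((I.count (σ : ℚ) : ℕ) : ℝ) ≤ z.sum (fun c w => (c σ : ℝ) * w)

/-- The value `LP(I)` of the Gilmore-Gomory configuration LP. -/
noncomputable def lpValue (I : List ℚ) : ℝ :=
  sInf {v : ℝ | ∃ z, IsLPFeasible I z ∧ v = z.sum (fun _ w => w)}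

/-- The items of `I` can be partitioned into `k` bins, each of total size at most `1`. -/
def PacksInto (I : List ℚ) (k : ℕ) : Prop :=
  ∃ bin : Fin I.length → Fin k,
    ∀ j : Fin k, ∑ i ∈ Finset.univ.filter (fun i => bin i = j), I.get i ≤ 1

/-- `OPT(I)`: the least number of bins into which the items of `I` can be partitioned. -/
noncomputable def optValue (I : List ℚ) : ℕ := sInf {k | PacksInto I k}

end Vale.Agent.Lib.P302
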