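import Mathlib
import Vale.Agent.Lib.P302.Defs
import Vale.Agent.Lib.P302.Checker

/-!
Bridges between the definitions of `Defs` and finite, checkable data on natural numbers.
-/

namespace Vale.Agent.Lib.P302

open Checker

/-- The instance with item sizes `n / L`, `n` running over `items`. -/
def inst (items : List ℕ) (L : ℕ) : List ℚ := items.map (fun n : ℕ => (n : ℚ) / L)

theorem dot_map_self (l : List ℕ) (f : ℕ → ℕ) :
    dot l (l.map f) = (l.map (fun s => s * f s)).sum := by
  induction l with
  | nil => simp [dot]
  | cons x xs ih => simp [dot, ih]

theorem addV_map_map (l : List ℕ) (f g : ℕ → ℕ) :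
    addV (l.map f) (l.map g) = l.map (fun s => f s + g s) := by
  induction l with
  | nil => simp [addV]
  | cons x xs ih =>
    simp only [addV, List.map_cons, List.zipWith_cons_cons, List.cons.injEq, true_and]
    exact ih

theorem foldr_addV_map {α : Type*} (xs : List α) (l : List ℕ) (g : α → ℕ → ℕ) :
    (xs.map (fun j => l.map (g j))).foldr addV (List.replicate l.length 0) =
      l.map (fun s => (xs.map (fun j => g j s)).sum) := by
  induction xs with
  | nil =>
    simp only [List.map_nil, List.foldr_nil, List.sum_nil]
    rw [List.map_const']
  | cons x xs ih =>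
    simp only [List.map_cons, List.foldr_cons, List.sum_cons]
    rw [ih, addV_map_map]

/-- A packing of the instance gives a `Packable` vector of counts. -/
theorem packable_of_packsInto (items l : List ℕ) (L k : ℕ) (hL : 0 < L) (hnd : l.Nodup)
    (hmem : ∀ s ∈ items, s ∈ l) (h : PacksInto (inst items L) k) :
    Packable l L k (l.map (fun s => items.count s)) := by
  obtain ⟨bin, hbin⟩ := h
  have hlen : (inst items L).length = items.length := by simp [inst]
  -- transport the assignment to `Fin items.length`
  let bin' : Fin items.length → Fin k := fun i => bin (Fin.cast hlen.symm i)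
  have hbin' : ∀ j : Fin k, ∑ i ∈ Finset.univ.filter (fun i => bin' i = j),
      ((items.get i : ℕ) : ℚ) / L ≤ 1 := by
    intro j
    have := hbin j
    refine le_trans (le_of_eq ?_) this
    refine Finset.sum_bij (fun i _ => Fin.cast hlen.symm i) ?_ ?_ ?_ ?_
    · intro i hi
      simpa [bin'] using hi
    · intro i _ i' _ hii
      exact Fin.cast_injective _ hii
    · intro i hi
      refine ⟨Fin.cast hlen i, ?_, ?_⟩
      · simpa [bin'] using hi
      · ext; simp
    · intro i _
      simp only [inst, List.get_eq_getElem, List.getElem_map]
      rfl
  -- the multiset of sizes in each bin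
  let m : Fin k → Multiset ℕ := fun j =>
    (Finset.univ.filter (fun i => bin' i = j)).val.map items.get
  have hmcount : ∀ j s, (m j).count s =
      ((Finset.univ.filter (fun i => bin' i = j)).filter (fun i => s = items.get i)).card := by
    intro j s
    simp only [m]
    rw [Multiset.count_map]
    rfl
  have hmsum : ∀ j, (m j).sum ≤ L := by
    intro j
    have h1 := hbin' j
    have hLq : (0 : ℚ) < L := by exact_mod_cast hL
    have h2 : ((m j).sum : ℚ) = ∑ i ∈ Finset.univ.filter (fun i => bin' i = j),
        ((items.get i : ℕ) : ℚ) := by
      simp only [m]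
      have : ((Finset.univ.filter (fun i => bin' i = j)).val.map items.get).sum =
          ∑ i ∈ Finset.univ.filter (fun i => bin' i = j), items.get i := rfl
      rw [this]
      push_cast
      rfl
    have h3 : ∑ i ∈ Finset.univ.filter (fun i => bin' i = j), ((items.get i : ℕ) : ℚ) / L =
        (∑ i ∈ Finset.univ.filter (fun i => bin' i = j), ((items.get i : ℕ) : ℚ)) / L := by
      rw [Finset.sum_div]
    rw [h3, ← h2, div_le_one hLq] at h1
    exact_mod_cast h1
  have hmmem : ∀ j, ∀ s ∈ m j, s ∈ l := by
    intro j s hs
    simp only [m, Multiset.mem_map] at hs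
    obtain ⟨i, _, rfl⟩ := hs
    exact hmem _ (List.get_mem _ _)
  have hsum_count : ∀ s, ((List.finRange k).map (fun j => (m j).count s)).sum = items.count s := by
    intro s
    have h1 : ((List.finRange k).map (fun j => (m j).count s)).sum = ∑ j, (m j).count s := by
      rw [Fin.sum_univ_def]
    rw [h1]
    have h2 : items.count s =
        (Finset.univ.filter (fun i : Fin items.length => s = items.get i)).card := by
      have h3 : ((items : Multiset ℕ)).count s =
          (Finset.univ.filter (fun i : Fin items.length => s = items.get i)).card := by
        have h4 : (items : Multiset ℕ) = (Finset.univ : Finset (Fin items.length)).val.map items.get := by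
          rw [Fin.univ_val_map]
          simp
        rw [h4, Multiset.count_map]
        rfl
      simpa using h3
    rw [h2, Finset.card_eq_sum_card_fiberwise (f := bin') (t := Finset.univ) (by simp)]
    refine Finset.sum_congr rfl ?_
    intro j _
    rw [hmcount]
    congr 1
    ext i
    simp only [Finset.mem_filter, Finset.mem_univ, true_and]
    tauto
  -- assemble
  refine ⟨(List.finRange k).map (fun j => l.map (fun s => (m j).count s)), by simp, ?_, ?_⟩
  · intro a ha
    obtain ⟨j, _, rfl⟩ := List.mem_map.mp ha
    refine ⟨by simp, ?_⟩
    rw [dot_map_self]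
    have h5 : (l.map (fun s => s * (m j).count s)).sum = (m j).sum := by
      rw [← List.sum_toFinset _ hnd]
      rw [Finset.sum_multiset_count (m j)]
      have hsub : (m j).toFinset ⊆ l.toFinset := by
        intro s hs
        simp only [Multiset.mem_toFinset] at hs
        simpa using hmmem j s hs
      rw [← Finset.sum_subset hsub]
      · refine Finset.sum_congr rfl ?_
        intro s _
        simp [mul_comm]
      · intro s _ hs
        have : (m j).count s = 0 := by
          rw [Multiset.count_eq_zero]
          intro hs2
          exact hs (Multiset.mem_toFinset.mpr hs2)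
        simp [this]
    rw [h5]
    exact hmsum j
  · have := foldr_addV_map (List.finRange k) l (fun j s => (m j).count s)
    rw [this]
    refine List.map_congr_left ?_
    intro s _
    exact hsum_count s

/-- The search certifies that there is no packing. -/
theorem not_packsInto_of_check (items l : List ℕ) (L k : ℕ) (hL : 0 < L) (hnd : l.Nodup)
    (hpos : ∀ s ∈ l, 0 < s) (hmem : ∀ s ∈ items, s ∈ l)
    (hc : check l L k (l.map (fun s => items.count s)) = false) : ¬ PacksInto (inst items L) k := by
  intro h
  have := check_of_packable l L hpos k _ (packable_of_packsInto items l L k hL hnd hmem h)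
  rw [hc] at this
  exact Bool.noConfusion this

/-- Packing monotonicity: a packing with `k` bins is also one with `k + 1` bins, etc. -/
theorem PacksInto.mono {I : List ℚ} {k k' : ℕ} (hk : k ≤ k') (h : PacksInto I k) : PacksInto I k' := by
  obtain ⟨bin, hbin⟩ := h
  have hinj : Function.Injective (Fin.castLE hk) := Fin.castLE_injective hk
  refine ⟨fun i => Fin.castLE hk (bin i), ?_⟩
  intro j
  by_cases hj : j.val < k
  · have h1 := hbin ⟨j.val, hj⟩
    refine le_trans (le_of_eq ?_) h1
    refine Finset.sum_congr ?_ (fun _ _ => rfl)
    ext i
    simp only [Finset.mem_filter, Finset.mem_univ, true_and, Fin.ext_iff, Fin.val_castLE]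
  · have : (Finset.univ.filter (fun i => Fin.castLE hk (bin i) = j)) = ∅ := by
      ext i
      simp only [Finset.mem_filter, Finset.mem_univ, true_and, Finset.notMem_empty, iff_false]
      intro hi
      apply hj
      rw [← hi]
      exact (bin i).isLt
    rw [this]
    simp

/-- `OPT` from a lower bound and a packing. -/
theorem optValue_eq {I : List ℚ} {k : ℕ} (h1 : PacksInto I (k + 1)) (h2 : ¬ PacksInto I k) :
    optValue I = k + 1 := by
  unfold optValue
  apply le_antisymm
  · exact Nat.sInf_le h1
  · have hne : {k | PacksInto I k}.Nonempty := ⟨_, h1⟩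
    have hmem := Nat.sInf_mem hne
    by_contra hlt
    push Not at hlt
    exact h2 (PacksInto.mono (by omega) hmem)

end Vale.Agent.Lib.P302

namespace Vale.Agent.Lib.P302

/-- A packing from an explicit assignment of items to bins. -/
theorem packsInto_inst (items : List ℕ) (L k : ℕ) (hL : 0 < L) (bin : Fin items.length → Fin k)
    (h : ∀ j : Fin k, ∑ i ∈ Finset.univ.filter (fun i => bin i = j), items.get i ≤ L) :
    PacksInto (inst items L) k := by
  have hlen : (inst items L).length = items.length := by simp [inst]
  refine ⟨fun i => bin (Fin.cast hlen i), ?_⟩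
  intro j
  have hLq : (0 : ℚ) < L := by exact_mod_cast hL
  have h1 : ((∑ i ∈ Finset.univ.filter (fun i => bin i = j), items.get i : ℕ) : ℚ) ≤ L := by
    exact_mod_cast h j
  have h2 : ∑ i ∈ Finset.univ.filter (fun i => bin (Fin.cast hlen i) = j), (inst items L).get i =
      (∑ i ∈ Finset.univ.filter (fun i => bin i = j), (items.get i : ℚ)) / L := by
    rw [Finset.sum_div]
    refine Finset.sum_bij (fun i _ => Fin.cast hlen i) ?_ ?_ ?_ ?_
    · intro i hi
      simpa using hi
    · intro i _ i' _ hii
      exact Fin.cast_injective _ hii
    · intro i hi
      refine ⟨Fin.cast hlen.symm i, ?_, ?_⟩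
      · simpa using hi
      · ext; simp
    · intro i _
      have h3 : (inst items L)[i.val] = ((items[i.val]'(by simpa [inst] using i.isLt) : ℕ) : ℚ) / L := by
        simp [inst]
      exact h3
  rw [h2, div_le_one hLq]
  push_cast at h1
  exact h1

end Vale.Agent.Lib.P302
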