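import Mathlib
import Vale.Agent.Lib.P302.Checker

/-!
A faster verified checker: item weights `w` with `dot w a ≤ D` on every bin prune the search.
-/

namespace Vale.Agent.Lib.P302.Checker

/-- All `a ≤ r` (pointwise) with `dot l a ≤ cap`, `need ≤ dot l a`, `wneed ≤ dot w a`.
The last two arguments are the values of `dot l r` and `dot w r`. -/
def subsW : List ℕ → List ℕ → List ℕ → ℕ → ℕ → ℕ → ℕ → ℕ → List (List ℕ)
  | x :: xs, u :: us, y :: ys, cap, need, wneed, rs, rw =>
      (List.range (min y (cap / x) + 1)).flatMap fun c =>
        if Nat.ble need (c * x + (rs - y * x)) && Nat.ble wneed (c * u + (rw - y * u)) then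
          (subsW xs us ys (cap - c * x) (need - c * x) (wneed - c * u)
            (rs - y * x) (rw - y * u)).map (c :: ·)
        else []
  | [], _, _, _, need, wneed, _, _ => if Nat.ble need 0 && Nat.ble wneed 0 then [[]] else []
  | _, _, _, _, _, _, _, _ => []

/-- As `subsW`, but `a` must be nonzero at the first nonzero position of `r`. -/
def subsF : List ℕ → List ℕ → List ℕ → ℕ → ℕ → ℕ → ℕ → ℕ → List (List ℕ)
  | _ :: xs, _ :: us, 0 :: ys, cap, need, wneed, rs, rw =>
      (subsF xs us ys cap need wneed rs rw).map (0 :: ·)
  | x :: xs, u :: us, (y + 1) :: ys, cap, need, wneed, rs, rw =>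
      (List.range (min (y + 1) (cap / x))).flatMap fun c =>
        if Nat.ble need ((c + 1) * x + (rs - (y + 1) * x)) &&
            Nat.ble wneed ((c + 1) * u + (rw - (y + 1) * u)) then
          (subsW xs us ys (cap - (c + 1) * x) (need - (c + 1) * x) (wneed - (c + 1) * u)
            (rs - (y + 1) * x) (rw - (y + 1) * u)).map ((c + 1) :: ·)
        else []
  | _, _, _, _, _, _, _, _ => []

/-- Exhaustive search for a packing of the counts `r` into `k` bins, pruned by the weights `w`. -/
def check2 (l w : List ℕ) (L D : ℕ) : ℕ → List ℕ → Bool
  | 0, r => r.all (· == 0)
  | k + 1, r =>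
      r.all (· == 0) ||
        (Nat.ble (dot l r) ((k + 1) * L) && Nat.ble (dot w r) ((k + 1) * D) &&
          (subsF l w r L (dot l r - k * L) (dot w r - k * D) (dot l r) (dot w r)).any
            (fun a => check2 l w L D k (subV r a)))

theorem mem_subsW (l w : List ℕ) (hpos : ∀ x ∈ l, 0 < x) {a r : List ℕ}
    (hlen : r.length = l.length) (hw : w.length = l.length)
    (h : LeV a r) (cap need wneed : ℕ) (hcap : dot l a ≤ cap) (hneed : need ≤ dot l a)
    (hwneed : wneed ≤ dot w a) :
    a ∈ subsW l w r cap need wneed (dot l r) (dot w r) := by
  induction l generalizing a r w cap need wneed with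
  | nil =>
    have hr : r = [] := List.length_eq_zero_iff.mp hlen
    have hw0 : w = [] := List.length_eq_zero_iff.mp hw
    subst hr hw0
    cases h
    simp only [dot] at hneed hwneed
    have h1 : need = 0 := Nat.le_zero.mp hneed
    have h2 : wneed = 0 := Nat.le_zero.mp hwneed
    subst h1 h2
    simp [subsW]
  | cons x xs ih =>
    cases h with
    | nil => simp at hlen
    | cons h1 h2 =>
      rename_i c y as ys
      cases w with
      | nil => simp at hw
      | cons u us =>
        simp only [List.length_cons, add_left_inj] at hlen hw
        simp only [dot] at hcap hneed hwneed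
        have e1 : x * y + dot xs ys - y * x = dot xs ys := by
          have : x * y = y * x := Nat.mul_comm _ _
          omega
        have e2 : u * y + dot us ys - y * u = dot us ys := by
          have : u * y = y * u := Nat.mul_comm _ _
          omega
        simp only [subsW, dot, e1, e2, List.mem_flatMap, List.mem_range]
        refine ⟨c, ?_, ?_⟩
        · have hx : 0 < x := hpos x (by simp)
          have hc : c ≤ cap / x := by
            rw [Nat.le_div_iff_mul_le hx]
            calc c * x = x * c := by ring
              _ ≤ cap := by omega
          omega
        · have h3 : dot xs as ≤ dot xs ys := dot_mono xs h2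
          have h3' : dot us as ≤ dot us ys := dot_mono us h2
          have g1 : need ≤ c * x + dot xs ys := by
            have : x * c = c * x := by ring
            omega
          have g2 : wneed ≤ c * u + dot us ys := by
            have : u * c = c * u := by ring
            omega
          have g : (Nat.ble need (c * x + dot xs ys) && Nat.ble wneed (c * u + dot us ys)) = true := by
            simp [Nat.ble_eq, g1, g2]
          rw [if_pos g]
          refine List.mem_map.mpr ⟨as, ih us (fun z hz => hpos z (by simp [hz])) hlen hw h2 _ _ _ ?_ ?_ ?_, rfl⟩
          · have : x * c = c * x := by ring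
            omega
          · have : x * c = c * x := by ring
            omega
          · have : u * c = c * u := by ring
            omega

theorem mem_subsF (l w : List ℕ) (hpos : ∀ x ∈ l, 0 < x) {a r : List ℕ}
    (hlen : r.length = l.length) (hw : w.length = l.length)
    (h : LeV a r) (hit : hitsFirst a r = true) (cap need wneed : ℕ) (hcap : dot l a ≤ cap)
    (hneed : need ≤ dot l a) (hwneed : wneed ≤ dot w a) :
    a ∈ subsF l w r cap need wneed (dot l r) (dot w r) := by
  induction l generalizing a r w cap need wneed with
  | nil =>
    have hr : r = [] := List.length_eq_zero_iff.mp hlen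
    subst hr
    cases h
    simp [hitsFirst] at hit
  | cons x xs ih =>
    cases h with
    | nil => simp at hlen
    | cons h1 h2 =>
      rename_i c y as ys
      cases w with
      | nil => simp at hw
      | cons u us =>
        simp only [List.length_cons, add_left_inj] at hlen hw
        simp only [dot] at hcap hneed hwneed
        cases y with
        | zero =>
          have hc : c = 0 := Nat.le_zero.mp h1
          subst hc
          simp only [hitsFirst, Bool.and_eq_true, beq_self_eq_true, true_and] at hit
          have e1 : dot (x :: xs) (0 :: ys) = dot xs ys := by simp [dot]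
          have e2 : dot (u :: us) (0 :: ys) = dot us ys := by simp [dot]
          rw [e1, e2]
          simp only [subsF]
          refine List.mem_map.mpr ⟨as, ih us (fun z hz => hpos z (by simp [hz])) hlen hw h2 hit _ _ _ ?_ ?_ ?_, rfl⟩
          · simpa using hcap
          · simpa using hneed
          · simpa using hwneed
        | succ y =>
          simp only [hitsFirst, bne_iff_ne, ne_eq] at hit
          obtain ⟨d, rfl⟩ : ∃ d, c = d + 1 := ⟨c - 1, by omega⟩
          have e1 : x * (y + 1) + dot xs ys - (y + 1) * x = dot xs ys := by
            have : x * (y + 1) = (y + 1) * x := Nat.mul_comm _ _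
            omega
          have e2 : u * (y + 1) + dot us ys - (y + 1) * u = dot us ys := by
            have : u * (y + 1) = (y + 1) * u := Nat.mul_comm _ _
            omega
          simp only [subsF, dot, e1, e2, List.mem_flatMap, List.mem_range]
          refine ⟨d, ?_, ?_⟩
          · have hx : 0 < x := hpos x (by simp)
            have hc : d + 1 ≤ cap / x := by
              rw [Nat.le_div_iff_mul_le hx]
              calc (d + 1) * x = x * (d + 1) := by ring
                _ ≤ cap := by omega
            omega
          · have h3 : dot xs as ≤ dot xs ys := dot_mono xs h2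
            have h3' : dot us as ≤ dot us ys := dot_mono us h2
            have g1 : need ≤ (d + 1) * x + dot xs ys := by
              have : x * (d + 1) = (d + 1) * x := by ring
              omega
            have g2 : wneed ≤ (d + 1) * u + dot us ys := by
              have : u * (d + 1) = (d + 1) * u := by ring
              omega
            have g : (Nat.ble need ((d + 1) * x + dot xs ys) &&
                Nat.ble wneed ((d + 1) * u + dot us ys)) = true := by
              simp [Nat.ble_eq, g1, g2]
            rw [if_pos g]
            refine List.mem_map.mpr ⟨as, mem_subsW xs us (fun z hz => hpos z (by simp [hz])) hlen hw h2 _ _ _ ?_ ?_ ?_, rfl⟩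
            · have : x * (d + 1) = (d + 1) * x := by ring
              omega
            · have : x * (d + 1) = (d + 1) * x := by ring
              omega
            · have : u * (d + 1) = (d + 1) * u := by ring
              omega

/-- Bound of the weight of the sum of bins. -/
theorem dot_foldr_le (l w : List ℕ) (hw : w.length = l.length) (D : ℕ) (bs : List (List ℕ))
    (hbs : ∀ a ∈ bs, a.length = l.length ∧ dot w a ≤ D) :
    dot w (bs.foldr addV (List.replicate l.length 0)) ≤ bs.length * D := by
  induction bs with
  | nil =>
    simp only [List.foldr_nil, List.length_nil, zero_mul]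
    rw [dot_replicate]
  | cons a as iha =>
    simp only [List.foldr_cons, List.length_cons]
    have h1 := hbs a (by simp)
    have h2 := iha (fun b hb' => hbs b (by simp [hb']))
    rw [dot_addV w a _ (by rw [h1.1, hw]) (by
      rw [length_foldr (fun b hb' => (hbs b (by simp [hb'])).1), hw])]
    nlinarith [h1.2]

/-- Soundness of the pruned search. -/
theorem check2_of_bins (l w : List ℕ) (L D : ℕ) (hpos : ∀ x ∈ l, 0 < x) (hw : w.length = l.length)
    (k : ℕ) (bins : List (List ℕ)) (hk : bins.length = k)
    (hb : ∀ a ∈ bins, a.length = l.length ∧ dot l a ≤ L ∧ dot w a ≤ D) :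
    check2 l w L D k (bins.foldr addV (List.replicate l.length 0)) = true := by
  induction k generalizing bins with
  | zero =>
    have : bins = [] := List.length_eq_zero_iff.mp hk
    subst this
    simp [check2]
  | succ k ih =>
    set r := bins.foldr addV (List.replicate l.length 0) with hr
    by_cases hz : r.all (· == 0) = true
    · simp [check2, hz]
    · have hlen : ∀ a ∈ bins, a.length = l.length := fun a ha => (hb a ha).1
      have hrlen : r.length = l.length := length_foldr hlen
      have hd : dot l r ≤ (k + 1) * L := by
        have := dot_foldr_le l l rfl L bins (fun a ha => ⟨(hb a ha).1, (hb a ha).2.1⟩)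
        rw [hk] at this
        exact this
      have hdw : dot w r ≤ (k + 1) * D := by
        have := dot_foldr_le l w hw D bins (fun a ha => ⟨(hb a ha).1, (hb a ha).2.2⟩)
        rw [hk] at this
        exact this
      obtain ⟨a, ha, hit⟩ := exists_hitsFirst l.length bins hlen (by rw [← hr]; exact hz)
      rw [← hr] at hit
      have hperm : bins.Perm (a :: bins.erase a) := List.perm_cons_erase ha
      have hfold : r = addV a ((bins.erase a).foldr addV (List.replicate l.length 0)) := by
        have := hperm.foldr_eq (f := addV) (List.replicate l.length 0)
        simpa [hr] using this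
      have hrest : ∀ b ∈ bins.erase a, b.length = l.length ∧ dot l b ≤ L ∧ dot w b ≤ D :=
        fun b hb' => hb b (List.mem_of_mem_erase hb')
      have hrl : ((bins.erase a).foldr addV (List.replicate l.length 0)).length = l.length :=
        length_foldr (fun b hb' => (hrest b hb').1)
      have hal : a.length = l.length := hlen a ha
      have hsub : subV r a = (bins.erase a).foldr addV (List.replicate l.length 0) := by
        rw [hfold]
        exact subV_addV _ _ (by rw [hal, hrl])
      have hle : LeV a r := by
        rw [hfold]
        exact leV_addV _ _ (by rw [hal, hrl])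
      have hk' : (bins.erase a).length = k := by
        rw [List.length_erase_of_mem ha, hk]; rfl
      have hneed : dot l r - k * L ≤ dot l a := by
        have h1 : dot l r = dot l a + dot l ((bins.erase a).foldr addV (List.replicate l.length 0)) := by
          rw [hfold]
          exact dot_addV l _ _ hal hrl
        have h2 := dot_foldr_le l l rfl L (bins.erase a) (fun b hb' => ⟨(hrest b hb').1, (hrest b hb').2.1⟩)
        rw [hk'] at h2
        omega
      have hwneed : dot w r - k * D ≤ dot w a := by
        have h1 : dot w r = dot w a + dot w ((bins.erase a).foldr addV (List.replicate l.length 0)) := by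
          rw [hfold]
          exact dot_addV w _ _ (by rw [hal, hw]) (by rw [hrl, hw])
        have h2 := dot_foldr_le l w hw D (bins.erase a) (fun b hb' => ⟨(hrest b hb').1, (hrest b hb').2.2⟩)
        rw [hk'] at h2
        omega
      have hmem : a ∈ subsF l w r L (dot l r - k * L) (dot w r - k * D) (dot l r) (dot w r) :=
        mem_subsF l w hpos hrlen hw hle hit _ _ _ (hb a ha).2.1 hneed hwneed
      have hrec := ih (bins.erase a) hk' hrest
      rw [← hsub] at hrec
      have hany : (subsF l w r L (dot l r - k * L) (dot w r - k * D) (dot l r) (dot w r)).any
            (fun a => check2 l w L D k (subV r a)) = true := by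
        rw [List.any_eq_true]
        exact ⟨a, hmem, hrec⟩
      have h1 : Nat.ble (dot l r) ((k + 1) * L) = true := by simpa [Nat.ble_eq] using hd
      have h2 : Nat.ble (dot w r) ((k + 1) * D) = true := by simpa [Nat.ble_eq] using hdw
      simp [check2, h1, h2, hany]

/-- `r` is not packable when the pruned search fails and every bin below `r` has weight at most `D`;
the latter is itself checked by `subsW` (no bin of weight at least `D + 1`). -/
theorem not_packable_of_check2 (l w : List ℕ) (L D k : ℕ) (r : List ℕ)
    (hpos : ∀ x ∈ l, 0 < x) (hw : w.length = l.length)
    (hdual : subsW l w r L 0 (D + 1) (dot l r) (dot w r) = [])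
    (hc : check2 l w L D k r = false) : ¬ Packable l L k r := by
  rintro ⟨bins, hk, hb, hr⟩
  have hlen : ∀ a ∈ bins, a.length = l.length := fun a ha => (hb a ha).1
  have hrlen : r.length = l.length := by rw [← hr]; exact length_foldr hlen
  have hb' : ∀ a ∈ bins, a.length = l.length ∧ dot l a ≤ L ∧ dot w a ≤ D := by
    intro a ha
    refine ⟨(hb a ha).1, (hb a ha).2, ?_⟩
    by_contra hlt
    push Not at hlt
    have hperm : bins.Perm (a :: bins.erase a) := List.perm_cons_erase ha
    have hfold : r = addV a ((bins.erase a).foldr addV (List.replicate l.length 0)) := by
      have := hperm.foldr_eq (f := addV) (List.replicate l.length 0)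
      rw [← hr]
      simpa using this
    have hrl : ((bins.erase a).foldr addV (List.replicate l.length 0)).length = l.length :=
      length_foldr (fun b hb' => hlen b (List.mem_of_mem_erase hb'))
    have hle : LeV a r := by
      rw [hfold]
      exact leV_addV _ _ (by rw [hlen a ha, hrl])
    have hmem := mem_subsW l w hpos hrlen hw hle L 0 (D + 1) (hb a ha).2 (Nat.zero_le _) hlt
    rw [hdual] at hmem
    simp at hmem
  have := check2_of_bins l w L D hpos hw k bins hk hb'
  rw [hr, hc] at this
  exact Bool.noConfusion this

end Vale.Agent.Lib.P302.Checker
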