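import Mathlib
import Vale.Agent.Lib.P302.Bridge
import Vale.Agent.Lib.P302.Checker2

/-!
The pruned search of `Checker2` certifies that an instance has no packing into `k` bins.
-/

namespace Vale.Agent.Lib.P302

open Checker

theorem not_packsInto_of_check2 (items l w r : List ℕ) (L D k : ℕ) (hL : 0 < L) (hnd : l.Nodup)
    (hpos : ∀ s ∈ l, 0 < s) (hmem : ∀ s ∈ items, s ∈ l) (hw : w.length = l.length)
    (hr : l.map (fun s => items.count s) = r)
    (hdual : subsW l w r L 0 (D + 1) (dot l r) (dot w r) = [])
    (hc : check2 l w L D k r = false) : ¬ PacksInto (inst items L) k := by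
  intro h
  have h1 := packable_of_packsInto items l L k hL hnd hmem h
  rw [hr] at h1
  exact not_packable_of_check2 l w L D k r hpos hw hdual hc h1

end Vale.Agent.Lib.P302
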