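import Mathlib
import Vale.Agent.Lib.P302.Defs
import Vale.Agent.Lib.P302.Checker
import Vale.Agent.Lib.P302.Bridge

/-!
A faster exhaustive checker: the next bin must contain the first remaining item, and the
remaining volume is maintained incrementally.
-/

namespace Vale.Agent.Lib.P302.Checker

/-- All `a ≤ r` (pointwise) with `need ≤ dot l a ≤ cap`; if `forced`, only those `a` that are
nonzero at the first position where `r` is nonzero. The number `avail` is `dot l r`. -/
def subsF : Bool → List ℕ → List ℕ → ℕ → ℕ → ℕ → List (List ℕ)
  | _, [], [], _, need, _ => if need = 0 then [[]] else []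
  | forced, x :: xs, y :: ys, cap, need, avail =>
      (List.range' (if forced && y != 0 then 1 else 0)
          (min y (cap / x) + 1 - (if forced && y != 0 then 1 else 0))).flatMap fun c =>
        if need ≤ c * x + (avail - x * y) then
          (subsF (forced && y == 0) xs ys (cap - c * x) (need - c * x) (avail - x * y)).map (c :: ·)
        else []
  | _, _, _, _, _, _ => []

/-- Exhaustive search for a packing of the item counts `r` into `k` bins of capacity `L`. -/
def checkF (l : List ℕ) (L : ℕ) : ℕ → List ℕ → Bool
  | 0, r => r.all (· == 0)
  | k + 1, r =>
      r.all (· == 0) ||
        (decide (dot l r ≤ (k + 1) * L) &&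
          (subsF true l r L (dot l r - k * L) (dot l r)).any
            (fun a => checkF l L k (subV r a)))

theorem mem_subsF (l : List ℕ) (hpos : ∀ x ∈ l, 0 < x) {a r : List ℕ} (hlen : r.length = l.length)
    (h : LeV a r) (forced : Bool) (cap need : ℕ) (hcap : dot l a ≤ cap) (hneed : need ≤ dot l a)
    (hf : forced = true → hitsFirst a r = true) :
    a ∈ subsF forced l r cap need (dot l r) := by
  induction l generalizing a r cap need forced with
  | nil =>
    have hr : r = [] := List.length_eq_zero_iff.mp hlen
    subst hr
    cases h
    simp only [dot] at hneed
    simp [subsF, Nat.le_zero.mp hneed]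
  | cons x xs ih =>
    cases h with
    | nil => simp at hlen
    | cons h1 h2 =>
      rename_i c y as ys
      simp only [List.length_cons, add_left_inj] at hlen
      simp only [dot] at hcap hneed
      have hx : 0 < x := hpos x (by simp)
      have hc : c ≤ cap / x := by
        rw [Nat.le_div_iff_mul_le hx]
        calc c * x = x * c := by ring
          _ ≤ cap := by omega
      have hrest : dot (x :: xs) (y :: ys) - x * y = dot xs ys := by
        simp [dot]
      have h3 : dot xs as ≤ dot xs ys := dot_mono xs h2
      have hxc : x * c = c * x := by ring
      have h4 : need ≤ c * x + dot xs ys := by omega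
      -- the case distinction on the forced flag
      have hlo : (if (forced && y != 0) = true then 1 else 0) ≤ c := by
        by_cases hfy : (forced && y != 0) = true
        · simp only [Bool.and_eq_true, bne_iff_ne, ne_eq] at hfy
          obtain ⟨hF, hy⟩ := hfy
          have hit := hf hF
          cases y with
          | zero => exact absurd rfl hy
          | succ m =>
            simp only [hitsFirst, bne_iff_ne, ne_eq] at hit
            rw [if_pos (by simp [hF])]
            omega
        · rw [if_neg hfy]
          exact Nat.zero_le _
      have hmem : c ∈ List.range' (if (forced && y != 0) = true then 1 else 0)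
          (min y (cap / x) + 1 - (if (forced && y != 0) = true then 1 else 0)) := by
        rw [List.mem_range'_1]
        refine ⟨hlo, ?_⟩
        have : c ≤ min y (cap / x) := le_min h1 hc
        omega
      simp only [subsF, List.mem_flatMap]
      refine ⟨c, hmem, ?_⟩
      rw [hrest, if_pos h4]
      refine List.mem_map.mpr ⟨as, ?_, rfl⟩
      refine ih (fun z hz => hpos z (by simp [hz])) hlen h2 _ _ _ ?_ ?_ ?_
      · omega
      · omega
      · intro hF
        simp only [Bool.and_eq_true, beq_iff_eq] at hF
        obtain ⟨hF1, hy0⟩ := hF
        have hit := hf hF1
        subst hy0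
        simp only [hitsFirst, Bool.and_eq_true, beq_iff_eq] at hit
        exact hit.2

/-- Soundness of the search: if a packing exists then `checkF` returns `true`. -/
theorem checkF_of_packable (l : List ℕ) (L : ℕ) (hpos : ∀ x ∈ l, 0 < x) (k : ℕ) (r : List ℕ)
    (h : Packable l L k r) : checkF l L k r = true := by
  induction k generalizing r with
  | zero =>
    obtain ⟨bins, hk, _, hr⟩ := h
    have : bins = [] := List.length_eq_zero_iff.mp hk
    subst this
    simp only [List.foldr_nil] at hr
    subst hr
    simp [checkF]
  | succ k ih =>
    obtain ⟨bins, hk, hb, hr⟩ := h
    by_cases hz : r.all (· == 0) = true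
    · simp [checkF, hz]
    · have hlen : ∀ a ∈ bins, a.length = l.length := fun a ha => (hb a ha).1
      have hrlen : r.length = l.length := by rw [← hr]; exact length_foldr hlen
      have hdot : ∀ (bs : List (List ℕ)), (∀ a ∈ bs, a.length = l.length ∧ dot l a ≤ L) →
          dot l (bs.foldr addV (List.replicate l.length 0)) ≤ bs.length * L := by
        intro bs hbs
        induction bs with
        | nil => simp [dot_replicate]
        | cons a as iha =>
          simp only [List.foldr_cons, List.length_cons]
          have h1 := hbs a (by simp)
          have h2 := iha (fun b hb' => hbs b (by simp [hb']))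
          rw [dot_addV l a _ h1.1 (length_foldr (fun b hb' => (hbs b (by simp [hb'])).1))]
          nlinarith [h1.2]
      have hd : dot l r ≤ (k + 1) * L := by
        have := hdot bins hb
        rw [hk, hr] at this
        exact this
      obtain ⟨a, ha, hit⟩ := exists_hitsFirst l.length bins hlen (by rw [hr]; exact hz)
      rw [hr] at hit
      have hperm : bins.Perm (a :: bins.erase a) := List.perm_cons_erase ha
      have hfold : bins.foldr addV (List.replicate l.length 0) =
          addV a ((bins.erase a).foldr addV (List.replicate l.length 0)) := by
        have := hperm.foldr_eq (f := addV) (List.replicate l.length 0)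
        simpa using this
      have hrest : ∀ b ∈ bins.erase a, b.length = l.length ∧ dot l b ≤ L :=
        fun b hb' => hb b (List.mem_of_mem_erase hb')
      have hrl : ((bins.erase a).foldr addV (List.replicate l.length 0)).length = l.length :=
        length_foldr (fun b hb' => (hrest b hb').1)
      have hal : a.length = l.length := hlen a ha
      have hsub : subV r a = (bins.erase a).foldr addV (List.replicate l.length 0) := by
        rw [← hr, hfold]
        exact subV_addV _ _ (by rw [hal, hrl])
      have hpack : Packable l L k (subV r a) := by
        refine ⟨bins.erase a, ?_, hrest, hsub.symm⟩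
        rw [List.length_erase_of_mem ha, hk]; rfl
      have hle : LeV a r := by
        rw [← hr, hfold]
        exact leV_addV _ _ (by rw [hal, hrl])
      have hneed : dot l r - k * L ≤ dot l a := by
        have h1 : dot l r = dot l a + dot l ((bins.erase a).foldr addV (List.replicate l.length 0)) := by
          rw [← hr, hfold]
          exact dot_addV l _ _ hal hrl
        have h2 := hdot (bins.erase a) hrest
        rw [List.length_erase_of_mem ha, hk] at h2
        simp only [Nat.add_sub_cancel] at h2
        omega
      have hmem : a ∈ subsF true l r L (dot l r - k * L) (dot l r) :=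
        mem_subsF l hpos hrlen hle true _ _ (hb a ha).2 hneed (fun _ => hit)
      have hany : (subsF true l r L (dot l r - k * L) (dot l r)).any
            (fun a => checkF l L k (subV r a)) = true := by
        rw [List.any_eq_true]
        exact ⟨a, hmem, ih _ hpack⟩
      simp [checkF, hd, hany]

end Vale.Agent.Lib.P302.Checker

namespace Vale.Agent.Lib.P302

open Checker

/-- The search certifies that there is no packing. -/
theorem not_packsInto_of_check' (items l : List ℕ) (L k : ℕ) (hL : 0 < L) (hnd : l.Nodup)
    (hpos : ∀ s ∈ l, 0 < s) (hmem : ∀ s ∈ items, s ∈ l)
    (hc : checkF l L k (l.map (fun s => items.count s)) = false) : ¬ PacksInto (inst items L) k := by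
  intro h
  have := checkF_of_packable l L hpos k _ (packable_of_packsInto items l L k hL hnd hmem h)
  rw [hc] at this
  exact Bool.noConfusion this

end Vale.Agent.Lib.P302
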