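import Mathlib
import Vale.Agent.Lib.P302.Defs
import Vale.Agent.Lib.P302.Checker
import Vale.Agent.Lib.P302.Bridge
import Vale.Agent.Lib.P302.FastCheck

/-!
A checker with a memo table given as a certificate: lists of count vectors, level by level, that
cannot be packed into the number of bins of their level.
-/

namespace Vale.Agent.Lib.P302.Checker

/-- equality test for count vectors -/
def veq : List ℕ → List ℕ → Bool
  | [], [] => true
  | x :: xs, y :: ys => Nat.beq x y && veq xs ys
  | _, _ => false

theorem eq_of_veq : ∀ {a b : List ℕ}, veq a b = true → a = b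
  | [], [], _ => rfl
  | [], _ :: _, h => by simp [veq] at h
  | _ :: _, [], h => by simp [veq] at h
  | x :: xs, y :: ys, h => by
    simp only [veq, Bool.and_eq_true] at h
    rw [Nat.eq_of_beq_eq_true h.1, eq_of_veq h.2]

/-- membership test for lists of count vectors -/
def memV (a : List ℕ) : List (List ℕ) → Bool
  | [] => false
  | b :: bs => veq a b || memV a bs

theorem mem_of_memV {a : List ℕ} : ∀ {bs : List (List ℕ)}, memV a bs = true → a ∈ bs
  | [], h => by simp [memV] at h
  | b :: bs, h => by
    simp only [memV, Bool.or_eq_true] at h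
    rcases h with h | h
    · rw [eq_of_veq h]; simp
    · exact List.mem_cons_of_mem _ (mem_of_memV h)

/-- One step: `r` cannot be packed into `k + 1` bins, given the table `prev` for `k` bins. -/
def stepOK (l : List ℕ) (L k : ℕ) (prev : List (List ℕ)) (r : List ℕ) : Bool :=
  !(r.all (· == 0)) &&
    (!(decide (dot l r ≤ (k + 1) * L)) ||
      (subsF true l r L (dot l r - k * L) (dot l r)).all (fun a => memV (subV r a) prev))

/-- The structure of a packing of a nonzero vector: the bin of the first item. -/
theorem exists_step (l : List ℕ) (L : ℕ) (hpos : ∀ x ∈ l, 0 < x) (k : ℕ) (r : List ℕ)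
    (h : Packable l L (k + 1) r) (hz : ¬ r.all (· == 0) = true) :
    dot l r ≤ (k + 1) * L ∧ ∃ a ∈ subsF true l r L (dot l r - k * L) (dot l r),
      Packable l L k (subV r a) := by
  obtain ⟨bins, hk, hb, hr⟩ := h
  have hlen : ∀ a ∈ bins, a.length = l.length := fun a ha => (hb a ha).1
  have hrlen : r.length = l.length := by rw [← hr]; exact length_foldr hlen
  have hdot : ∀ (bs : List (List ℕ)), (∀ a ∈ bs, a.length = l.length ∧ dot l a ≤ L) →
      dot l (bs.foldr addV (List.replicate l.length 0)) ≤ bs.length * L := by
    intro bs hbs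
    induction bs with
    | nil => simp [dot_replicate]
    | cons a as iha =>
      simp only [List.foldr_cons, List.length_cons]
      have h1 := hbs a (by simp)
      have h2 := iha (fun b hb' => hbs b (by simp [hb']))
      rw [dot_addV l a _ h1.1 (length_foldr (fun b hb' => (hbs b (by simp [hb'])).1))]
      nlinarith [h1.2]
  have hd : dot l r ≤ (k + 1) * L := by
    have := hdot bins hb
    rw [hk, hr] at this
    exact this
  obtain ⟨a, ha, hit⟩ := exists_hitsFirst l.length bins hlen (by rw [hr]; exact hz)
  rw [hr] at hit
  have hperm : bins.Perm (a :: bins.erase a) := List.perm_cons_erase ha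
  have hfold : bins.foldr addV (List.replicate l.length 0) =
      addV a ((bins.erase a).foldr addV (List.replicate l.length 0)) := by
    have := hperm.foldr_eq (f := addV) (List.replicate l.length 0)
    simpa using this
  have hrest : ∀ b ∈ bins.erase a, b.length = l.length ∧ dot l b ≤ L :=
    fun b hb' => hb b (List.mem_of_mem_erase hb')
  have hrl : ((bins.erase a).foldr addV (List.replicate l.length 0)).length = l.length :=
    length_foldr (fun b hb' => (hrest b hb').1)
  have hal : a.length = l.length := hlen a ha
  have hsub : subV r a = (bins.erase a).foldr addV (List.replicate l.length 0) := by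
    rw [← hr, hfold]
    exact subV_addV _ _ (by rw [hal, hrl])
  have hpack : Packable l L k (subV r a) := by
    refine ⟨bins.erase a, ?_, hrest, hsub.symm⟩
    rw [List.length_erase_of_mem ha, hk]; rfl
  have hle : LeV a r := by
    rw [← hr, hfold]
    exact leV_addV _ _ (by rw [hal, hrl])
  have hneed : dot l r - k * L ≤ dot l a := by
    have h1 : dot l r = dot l a + dot l ((bins.erase a).foldr addV (List.replicate l.length 0)) := by
      rw [← hr, hfold]
      exact dot_addV l _ _ hal hrl
    have h2 := hdot (bins.erase a) hrest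
    rw [List.length_erase_of_mem ha, hk] at h2
    simp only [Nat.add_sub_cancel] at h2
    omega
  have hmem : a ∈ subsF true l r L (dot l r - k * L) (dot l r) :=
    mem_subsF l hpos hrlen hle true _ _ (hb a ha).2 hneed (fun _ => hit)
  exact ⟨hd, a, hmem, hpack⟩

/-- Soundness of one step. -/
theorem not_packable_of_stepOK (l : List ℕ) (L : ℕ) (hpos : ∀ x ∈ l, 0 < x) (k : ℕ)
    (prev : List (List ℕ)) (hprev : ∀ r ∈ prev, ¬ Packable l L k r) (r : List ℕ)
    (hs : stepOK l L k prev r = true) : ¬ Packable l L (k + 1) r := by
  intro h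
  simp only [stepOK, Bool.and_eq_true, Bool.not_eq_true', Bool.or_eq_true, decide_eq_false_iff_not,
    List.all_eq_true] at hs
  obtain ⟨hz, hs⟩ := hs
  have hz' : ¬ r.all (· == 0) = true := by simpa using hz
  obtain ⟨hd, a, ha, hp⟩ := exists_step l L hpos k r h hz'
  rcases hs with hs | hs
  · exact hs hd
  · exact hprev _ (mem_of_memV (hs a ha)) hp

/-- The level zero: a nonzero vector cannot be packed into no bins. -/
theorem not_packable_zero (l : List ℕ) (L : ℕ) (r : List ℕ) (hz : (r.all (· == 0)) = false) :
    ¬ Packable l L 0 r := by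
  rintro ⟨bins, hk, _, hr⟩
  have : bins = [] := List.length_eq_zero_iff.mp hk
  subst this
  simp only [List.foldr_nil] at hr
  subst hr
  simp at hz

/-- The check of the levels of the certificate, starting from the table `prev` for `k` bins. -/
def certOK (l : List ℕ) (L : ℕ) : ℕ → List (List ℕ) → List (List (List ℕ)) → Bool
  | _, _, [] => true
  | k, prev, cur :: rest => cur.all (stepOK l L k prev) && certOK l L (k + 1) cur rest

theorem not_packable_of_certOK (l : List ℕ) (L : ℕ) (hpos : ∀ x ∈ l, 0 < x) :
    ∀ (Ds : List (List (List ℕ))) (k : ℕ) (prev : List (List ℕ)),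
      (∀ r ∈ prev, ¬ Packable l L k r) → certOK l L k prev Ds = true →
      ∀ (j : ℕ), ∀ r ∈ Ds.getD j [], ¬ Packable l L (k + j + 1) r
  | [], _, _, _, _, j, r, hr => by simp at hr
  | cur :: rest, k, prev, hprev, hc, j, r, hr => by
    simp only [certOK, Bool.and_eq_true, List.all_eq_true] at hc
    have hcur : ∀ r ∈ cur, ¬ Packable l L (k + 1) r := fun r hr =>
      not_packable_of_stepOK l L hpos k prev hprev r (hc.1 r hr)
    cases j with
    | zero =>
      simp only [List.getD_cons_zero] at hr
      exact hcur r hr
    | succ j =>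
      simp only [List.getD_cons_succ] at hr
      have := not_packable_of_certOK l L hpos rest (k + 1) cur hcur hc.2 j r hr
      have e : k + 1 + j + 1 = k + (j + 1) + 1 := by omega
      rwa [e] at this

/-- The full check: all vectors of the table `D0` are nonzero, the levels are correct, and `r0` is
in the table for `K + 1` bins. -/
def certTop (l : List ℕ) (L K : ℕ) (D0 : List (List ℕ)) (Ds : List (List (List ℕ))) (r0 : List ℕ) :
    Bool :=
  D0.all (fun r => !(r.all (· == 0))) && certOK l L 0 D0 Ds && memV r0 (Ds.getD K [])

theorem not_packable_of_certTop (l : List ℕ) (L K : ℕ) (hpos : ∀ x ∈ l, 0 < x)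
    (D0 : List (List ℕ)) (Ds : List (List (List ℕ))) (r0 : List ℕ)
    (hc : certTop l L K D0 Ds r0 = true) : ¬ Packable l L (K + 1) r0 := by
  simp only [certTop, Bool.and_eq_true, List.all_eq_true, Bool.not_eq_true'] at hc
  obtain ⟨⟨h0, h1⟩, h2⟩ := hc
  have hD0 : ∀ r ∈ D0, ¬ Packable l L 0 r := fun r hr => not_packable_zero l L r (h0 r hr)
  have := not_packable_of_certOK l L hpos Ds 0 D0 hD0 h1 K r0 (mem_of_memV h2)
  simpa using this

end Vale.Agent.Lib.P302.Checker

namespace Vale.Agent.Lib.P302

open Checker

/-- The certificate shows that there is no packing. -/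
theorem not_packsInto_of_cert (items l : List ℕ) (L K : ℕ) (hL : 0 < L) (hnd : l.Nodup)
    (hpos : ∀ s ∈ l, 0 < s) (hmem : ∀ s ∈ items, s ∈ l)
    (D0 : List (List ℕ)) (Ds : List (List (List ℕ)))
    (hc : certTop l L K D0 Ds (l.map (fun s => items.count s)) = true) :
    ¬ PacksInto (inst items L) (K + 1) := by
  intro h
  exact not_packable_of_certTop l L K hpos D0 Ds _ hc
    (packable_of_packsInto items l L (K + 1) hL hnd hmem h)

end Vale.Agent.Lib.P302
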