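import Mathlib
import Vale.Agent.Lib.P302.Checker2
import Vale.Agent.Lib.P302.Bridge2

/-!
A certificate version of `check2`. The certificate holds, for each number of bins, a search tree of
codes of failing states; each child of a state either fails by a counting bound or has its code in
the tree for one bin less.
-/

namespace Vale.Agent.Lib.P302.Checker

/-- The state fails by a counting bound. -/
def failQuick (l w : List ℕ) (L D k : ℕ) (r : List ℕ) : Bool :=
  !(r.all (· == 0)) && (!(Nat.ble (dot l r) (k * L)) || !(Nat.ble (dot w r) (k * D)))

/-- Code of a count vector: digits in base 16. -/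
def code (r : List ℕ) : ℕ := r.foldl (fun acc x => acc * 16 + x) 0

/-- Decoding with an accumulator. -/
def decAux : ℕ → ℕ → List ℕ → List ℕ
  | 0, _, acc => acc
  | m + 1, c, acc => decAux m (c / 16) ((c % 16) :: acc)

/-- The count vector of length `m` with code `c`. -/
def decode (m c : ℕ) : List ℕ := decAux m c []

/-- Binary search trees of codes. -/
inductive BT where
  | leaf : BT
  | node : BT → ℕ → BT → BT

/-- The codes held by a tree. -/
def BT.toList : BT → List ℕ
  | .leaf => []
  | .node a c b => a.toList ++ c :: b.toList

/-- A predicate holds for all codes. -/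
def BT.allB (p : ℕ → Bool) : BT → Bool
  | .leaf => true
  | .node a c b => a.allB p && p c && b.allB p

/-- Search for a code. -/
def BT.find (x : ℕ) : BT → Bool
  | .leaf => false
  | .node a c b =>
      if Nat.blt x c then a.find x else if Nat.blt c x then b.find x else Nat.beq x c

theorem BT.mem_of_find (x : ℕ) (t : BT) (h : t.find x = true) : x ∈ t.toList := by
  induction t with
  | leaf => simp [BT.find] at h
  | node a c b iha ihb =>
    simp only [BT.find] at h
    simp only [BT.toList, List.mem_append, List.mem_cons]
    split_ifs at h with h1 h2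
    · exact Or.inl (iha h)
    · exact Or.inr (Or.inr (ihb h))
    · exact Or.inr (Or.inl (Nat.eq_of_beq_eq_true h))

theorem BT.all_mem (p : ℕ → Bool) (t : BT) (h : t.allB p = true) : ∀ x ∈ t.toList, p x = true := by
  induction t with
  | leaf => simp [BT.toList]
  | node a c b iha ihb =>
    simp only [BT.allB, Bool.and_eq_true] at h
    obtain ⟨⟨h1, h2⟩, h3⟩ := h
    intro x hx
    simp only [BT.toList, List.mem_append, List.mem_cons] at hx
    rcases hx with hx | rfl | hx
    · exact iha h1 x hx
    · exact h2
    · exact ihb h3 x hx

/-- The child `x` of a state fails: by a counting bound, or since it decodes from the tree `t`. -/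
def childFails (l w : List ℕ) (L D k m : ℕ) (t : BT) (x : List ℕ) : Bool :=
  failQuick l w L D k x || (t.find (code x) && (decode m (code x) == x))

/-- One step of the certificate check: the state `r` with `k + 1` bins fails. -/
def stepB (l w : List ℕ) (L D k m : ℕ) (t : BT) (r : List ℕ) : Bool :=
  !(r.all (· == 0)) &&
    (subsF l w r L (dot l r - k * L) (dot w r - k * D) (dot l r) (dot w r)).all
      (fun a => childFails l w L D k m t (subV r a))

/-- The whole certificate check, for a list of trees, with `k + 1` bins at its head. -/
def verifyL (l w : List ℕ) (L D m : ℕ) : ℕ → List BT → Bool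
  | _, [] => true
  | 0, t :: ts => t.allB (fun c => stepB l w L D 0 m .leaf (decode m c)) && verifyL l w L D m 0 ts
  | k + 1, t :: ts =>
      t.allB (fun c => stepB l w L D (k + 1) m (ts.headD .leaf) (decode m c)) &&
        verifyL l w L D m k ts

theorem check2_false_of_failQuick (l w : List ℕ) (L D k : ℕ) (r : List ℕ)
    (h : failQuick l w L D k r = true) : check2 l w L D k r = false := by
  simp only [failQuick, Bool.and_eq_true, Bool.not_eq_true', Bool.or_eq_true] at h
  obtain ⟨h1, h2⟩ := h
  cases k with
  | zero => simp [check2, h1]
  | succ k =>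
    rcases h2 with h2 | h2 <;> simp [check2, h1, h2]

/-- All codes of the tree `t` fail with `k` bins. -/
def TreeFails (l w : List ℕ) (L D m k : ℕ) (t : BT) : Prop :=
  ∀ c ∈ t.toList, check2 l w L D k (decode m c) = false

theorem check2_false_of_stepB (l w : List ℕ) (L D k m : ℕ) (t : BT)
    (ht : TreeFails l w L D m k t) (r : List ℕ)
    (h : stepB l w L D k m t r = true) : check2 l w L D (k + 1) r = false := by
  simp only [stepB, Bool.and_eq_true, Bool.not_eq_true', List.all_eq_true] at h
  obtain ⟨h1, h2⟩ := h
  have hany : (subsF l w r L (dot l r - k * L) (dot w r - k * D) (dot l r) (dot w r)).any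
      (fun a => check2 l w L D k (subV r a)) = false := by
    rw [List.any_eq_false]
    intro a ha
    have h3 := h2 a ha
    simp only [childFails, Bool.or_eq_true, Bool.and_eq_true, beq_iff_eq] at h3
    rcases h3 with h3 | ⟨h3, h4⟩
    · simp [check2_false_of_failQuick l w L D k _ h3]
    · have h5 := ht _ (BT.mem_of_find _ _ h3)
      rw [h4] at h5
      simp [h5]
  simp [check2, h1, hany]

theorem verifyL_sound (l w : List ℕ) (L D m : ℕ) (ts : List BT) (k : ℕ)
    (h : verifyL l w L D m k ts = true) :
    ∀ (t : BT), ts.head? = some t → TreeFails l w L D m (k + 1) t := by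
  induction ts generalizing k with
  | nil => simp
  | cons t ts ih =>
    intro t' ht'
    simp only [List.head?_cons, Option.some.injEq] at ht'
    subst ht'
    cases k with
    | zero =>
      simp only [verifyL, Bool.and_eq_true] at h
      obtain ⟨h1, _⟩ := h
      intro c hc
      have h2 := BT.all_mem _ _ h1 c hc
      refine check2_false_of_stepB l w L D 0 m .leaf ?_ _ h2
      intro c' hc'
      simp [BT.toList] at hc'
    | succ k =>
      simp only [verifyL, Bool.and_eq_true] at h
      obtain ⟨h1, h2⟩ := h
      have hnext : TreeFails l w L D m (k + 1) (ts.headD .leaf) := by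
        cases ts with
        | nil =>
          intro c' hc'
          simp [BT.toList] at hc'
        | cons t2 ts2 =>
          exact ih k h2 t2 (by simp)
      intro c hc
      have h3 := BT.all_mem _ _ h1 c hc
      exact check2_false_of_stepB l w L D (k + 1) m _ hnext _ h3

theorem treeFails_leaf (l w : List ℕ) (L D m k : ℕ) : TreeFails l w L D m k .leaf := by
  intro c hc
  simp [BT.toList] at hc

theorem treeFails_of_step (l w : List ℕ) (L D k m : ℕ) (t' t : BT)
    (ht' : TreeFails l w L D m k t')
    (h : t.allB (fun c => stepB l w L D k m t' (decode m c)) = true) :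
    TreeFails l w L D m (k + 1) t := by
  intro c hc
  exact check2_false_of_stepB l w L D k m t' ht' _ (BT.all_mem _ _ h c hc)

end Vale.Agent.Lib.P302.Checker

namespace Vale.Agent.Lib.P302

open Checker

/-- A certificate shows that the instance has no packing into `k + 1` bins. The head tree holds the
code of the full count vector `r`. -/
theorem not_packsInto_of_cert (items l w r : List ℕ) (L D k m : ℕ) (t : BT) (ts : List BT)
    (hL : 0 < L) (hnd : l.Nodup)
    (hpos : ∀ s ∈ l, 0 < s) (hmem : ∀ s ∈ items, s ∈ l) (hw : w.length = l.length)
    (hr : l.map (fun s => items.count s) = r)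
    (hdual : subsW l w r L 0 (D + 1) (dot l r) (dot w r) = [])
    (hroot : t.find (code r) = true) (hdec : decode m (code r) = r)
    (hc : verifyL l w L D m k (t :: ts) = true) : ¬ PacksInto (inst items L) (k + 1) := by
  have h1 := verifyL_sound l w L D m (t :: ts) k hc t (by simp)
  have h2 := h1 _ (BT.mem_of_find _ _ hroot)
  rw [hdec] at h2
  exact not_packsInto_of_check2 items l w r L D (k + 1) hL hnd hpos hmem hw hr hdual h2

/-- A layered certificate shows that the instance has no packing into `k` bins. -/
theorem not_packsInto_of_tree (items l w r : List ℕ) (L D k m : ℕ) (t : BT)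
    (hL : 0 < L) (hnd : l.Nodup)
    (hpos : ∀ s ∈ l, 0 < s) (hmem : ∀ s ∈ items, s ∈ l) (hw : w.length = l.length)
    (hr : l.map (fun s => items.count s) = r)
    (hdual : subsW l w r L 0 (D + 1) (dot l r) (dot w r) = [])
    (ht : TreeFails l w L D m k t)
    (hroot : t.find (code r) = true) (hdec : decode m (code r) = r) :
    ¬ PacksInto (inst items L) k := by
  have h2 := ht _ (BT.mem_of_find _ _ hroot)
  rw [hdec] at h2
  exact not_packsInto_of_check2 items l w r L D k hL hnd hpos hmem hw hr hdual h2

end Vale.Agent.Lib.P302
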