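import Mathlib
import Vale.Agent.Lib.P302.Checker2
import Vale.Agent.Lib.P302.Bridge2
import Vale.Agent.Lib.P302.Checker3

/-!
A faster certificate checker: bins are enumerated in continuation style, with no lists of results.
-/

namespace Vale.Agent.Lib.P302.Checker

/-- `f c` for all `c ≤ n`. -/
def loopAll (f : ℕ → Bool) : ℕ → Bool
  | 0 => f 0
  | n + 1 => f (n + 1) && loopAll f n

theorem loopAll_spec (f : ℕ → Bool) (n : ℕ) (h : loopAll f n = true) (c : ℕ) (hc : c ≤ n) :
    f c = true := by
  induction n with
  | zero =>
    have : c = 0 := by omega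
    subst this
    exact h
  | succ n ih =>
    simp only [loopAll, Bool.and_eq_true] at h
    by_cases hc2 : c = n + 1
    · subst hc2
      exact h.1
    · exact ih h.2 (by omega)

/-- `f c` for all `1 ≤ c ≤ n`. -/
def loopAll1 (f : ℕ → Bool) : ℕ → Bool
  | 0 => true
  | n + 1 => f (n + 1) && loopAll1 f n

theorem loopAll1_spec (f : ℕ → Bool) (n : ℕ) (h : loopAll1 f n = true) (c : ℕ) (hc0 : 1 ≤ c)
    (hc : c ≤ n) : f c = true := by
  induction n with
  | zero => omega
  | succ n ih =>
    simp only [loopAll1, Bool.and_eq_true] at h
    by_cases hc2 : c = n + 1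
    · subst hc2
      exact h.1
    · exact ih h.2 (by omega)

/-- `p a` for all `a ≤ r` with `dot l a ≤ cap` and `wneed ≤ dot w a`; the last argument is
`dot w r`. -/
def allW : List ℕ → List ℕ → List ℕ → (List ℕ → Bool) → ℕ → ℕ → ℕ → Bool
  | _ :: xs, _ :: us, 0 :: ys, p, cap, wneed, rw =>
      allW xs us ys (fun t => p (0 :: t)) cap wneed rw
  | x :: xs, u :: us, (y + 1) :: ys, p, cap, wneed, rw =>
      loopAll (fun c =>
        !(Nat.ble wneed (c * u + (rw - (y + 1) * u))) ||
          allW xs us ys (fun t => p (c :: t)) (cap - c * x) (wneed - c * u) (rw - (y + 1) * u))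
        (min (y + 1) (cap / x))
  | _, _, _, p, _, wneed, _ => !(Nat.ble wneed 0) || p []

theorem allW_spec (l w : List ℕ) (hpos : ∀ x ∈ l, 0 < x) (r : List ℕ)
    (hlen : r.length = l.length) (hw : w.length = l.length) (p : List ℕ → Bool) (cap wneed : ℕ)
    (h : allW l w r p cap wneed (dot w r) = true) (a : List ℕ) (ha : LeV a r)
    (hcap : dot l a ≤ cap) (hwneed : wneed ≤ dot w a) : p a = true := by
  induction l generalizing r w p cap wneed a with
  | nil =>
    have hr : r = [] := List.length_eq_zero_iff.mp hlen
    have hw0 : w = [] := List.length_eq_zero_iff.mp hw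
    subst hr hw0
    cases ha
    simp only [dot] at hwneed
    have h1 : wneed = 0 := Nat.le_zero.mp hwneed
    subst h1
    simpa [allW] using h
  | cons x xs ih =>
    cases ha with
    | nil => simp at hlen
    | cons h1 h2 =>
      rename_i c y as ys
      cases w with
      | nil => simp at hw
      | cons u us =>
        simp only [List.length_cons, add_left_inj] at hlen hw
        simp only [dot] at hcap hwneed
        cases y with
        | zero =>
          have hc : c = 0 := Nat.le_zero.mp h1
          subst hc
          have e2 : dot (u :: us) (0 :: ys) = dot us ys := by simp [dot]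
          rw [e2] at h
          simp only [allW] at h
          exact ih us (fun z hz => hpos z (by simp [hz])) ys hlen hw (fun t => p (0 :: t)) cap wneed
            h as h2 (by simpa using hcap) (by simpa using hwneed)
        | succ y =>
          have e2 : u * (y + 1) + dot us ys - (y + 1) * u = dot us ys := by
            have : u * (y + 1) = (y + 1) * u := Nat.mul_comm _ _
            omega
          have hdw : dot (u :: us) ((y + 1) :: ys) = u * (y + 1) + dot us ys := rfl
          rw [hdw] at h
          simp only [allW, e2] at h
          have hx : 0 < x := hpos x (by simp)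
          have hc : c ≤ cap / x := by
            rw [Nat.le_div_iff_mul_le hx]
            calc c * x = x * c := by ring
              _ ≤ cap := by omega
          have h3 := loopAll_spec _ _ h c (by omega)
          have h4 : dot us as ≤ dot us ys := dot_mono us h2
          have g : Nat.ble wneed (c * u + dot us ys) = true := by
            have : u * c = c * u := by ring
            exact Nat.ble_eq_true_of_le (by omega)
          simp only [g, Bool.not_true, Bool.false_or] at h3
          refine ih us (fun z hz => hpos z (by simp [hz])) ys hlen hw (fun t => p (c :: t)) _ _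
            h3 as h2 ?_ ?_
          · have : x * c = c * x := by ring
            omega
          · have : u * c = c * u := by ring
            omega

/-- As `allW`, for `a` that are nonzero at the first nonzero position of `r`. -/
def allF : List ℕ → List ℕ → List ℕ → (List ℕ → Bool) → ℕ → ℕ → ℕ → Bool
  | _ :: xs, _ :: us, 0 :: ys, p, cap, wneed, rw =>
      allF xs us ys (fun t => p (0 :: t)) cap wneed rw
  | x :: xs, u :: us, (y + 1) :: ys, p, cap, wneed, rw =>
      loopAll1 (fun c =>
        !(Nat.ble wneed (c * u + (rw - (y + 1) * u))) ||
          allW xs us ys (fun t => p (c :: t)) (cap - c * x) (wneed - c * u) (rw - (y + 1) * u))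
        (min (y + 1) (cap / x))
  | _, _, _, _, _, _, _ => true

theorem allF_spec (l w : List ℕ) (hpos : ∀ x ∈ l, 0 < x) (r : List ℕ)
    (hlen : r.length = l.length) (hw : w.length = l.length) (p : List ℕ → Bool) (cap wneed : ℕ)
    (h : allF l w r p cap wneed (dot w r) = true) (a : List ℕ) (ha : LeV a r)
    (hit : hitsFirst a r = true) (hcap : dot l a ≤ cap) (hwneed : wneed ≤ dot w a) :
    p a = true := by
  induction l generalizing r w p cap wneed a with
  | nil =>
    have hr : r = [] := List.length_eq_zero_iff.mp hlen
    subst hr
    cases ha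
    simp [hitsFirst] at hit
  | cons x xs ih =>
    cases ha with
    | nil => simp at hlen
    | cons h1 h2 =>
      rename_i c y as ys
      cases w with
      | nil => simp at hw
      | cons u us =>
        simp only [List.length_cons, add_left_inj] at hlen hw
        simp only [dot] at hcap hwneed
        cases y with
        | zero =>
          have hc : c = 0 := Nat.le_zero.mp h1
          subst hc
          simp only [hitsFirst, Bool.and_eq_true, beq_self_eq_true, true_and] at hit
          have e2 : dot (u :: us) (0 :: ys) = dot us ys := by simp [dot]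
          rw [e2] at h
          simp only [allF] at h
          exact ih us (fun z hz => hpos z (by simp [hz])) ys hlen hw (fun t => p (0 :: t)) cap wneed
            h as h2 hit (by simpa using hcap) (by simpa using hwneed)
        | succ y =>
          simp only [hitsFirst, bne_iff_ne, ne_eq] at hit
          have e2 : u * (y + 1) + dot us ys - (y + 1) * u = dot us ys := by
            have : u * (y + 1) = (y + 1) * u := Nat.mul_comm _ _
            omega
          have hdw : dot (u :: us) ((y + 1) :: ys) = u * (y + 1) + dot us ys := rfl
          rw [hdw] at h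
          simp only [allF, e2] at h
          have hx : 0 < x := hpos x (by simp)
          have hc : c ≤ cap / x := by
            rw [Nat.le_div_iff_mul_le hx]
            calc c * x = x * c := by ring
              _ ≤ cap := by omega
          have h3 := loopAll1_spec _ _ h c (by omega) (by omega)
          have h4 : dot us as ≤ dot us ys := dot_mono us h2
          have g : Nat.ble wneed (c * u + dot us ys) = true := by
            have : u * c = c * u := by ring
            exact Nat.ble_eq_true_of_le (by omega)
          simp only [g, Bool.not_true, Bool.false_or] at h3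
          refine allW_spec xs us (fun z hz => hpos z (by simp [hz])) ys hlen hw (fun t => p (c :: t))
            _ _ h3 as h2 ?_ ?_
          · have : x * c = c * x := by ring
            omega
          · have : u * c = c * u := by ring
            omega

/-- `r` is the sum of `k` bins, each of size at most `L` and weight at most `D`. -/
def PW (l w : List ℕ) (L D k : ℕ) (r : List ℕ) : Prop :=
  ∃ bins : List (List ℕ), bins.length = k ∧
    (∀ a ∈ bins, a.length = l.length ∧ dot l a ≤ L ∧ dot w a ≤ D) ∧
    bins.foldr addV (List.replicate l.length 0) = r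

theorem PW_bounds (l w : List ℕ) (L D k : ℕ) (r : List ℕ) (hw : w.length = l.length)
    (h : PW l w L D k r) : dot l r ≤ k * L ∧ dot w r ≤ k * D := by
  obtain ⟨bins, hk, hb, hr⟩ := h
  constructor
  · have := dot_foldr_le l l rfl L bins (fun a ha => ⟨(hb a ha).1, (hb a ha).2.1⟩)
    rw [hk, hr] at this
    exact this
  · have := dot_foldr_le l w hw D bins (fun a ha => ⟨(hb a ha).1, (hb a ha).2.2⟩)
    rw [hk, hr] at this
    exact this

theorem PW_step (l w : List ℕ) (L D k : ℕ) (r : List ℕ) (hw : w.length = l.length)
    (h : PW l w L D (k + 1) r) (hz : ¬ r.all (· == 0) = true) :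
    r.length = l.length ∧ ∃ a, LeV a r ∧ hitsFirst a r = true ∧ dot l a ≤ L ∧
      dot w r - k * D ≤ dot w a ∧ PW l w L D k (subV r a) := by
  obtain ⟨bins, hk, hb, hr⟩ := h
  have hlen : ∀ a ∈ bins, a.length = l.length := fun a ha => (hb a ha).1
  have hrlen : r.length = l.length := by rw [← hr]; exact length_foldr hlen
  refine ⟨hrlen, ?_⟩
  obtain ⟨a, ha, hit⟩ := exists_hitsFirst l.length bins hlen (by rw [hr]; exact hz)
  rw [hr] at hit
  have hperm : bins.Perm (a :: bins.erase a) := List.perm_cons_erase ha
  have hfold : r = addV a ((bins.erase a).foldr addV (List.replicate l.length 0)) := by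
    have := hperm.foldr_eq (f := addV) (List.replicate l.length 0)
    rw [← hr]
    simpa using this
  have hrest : ∀ b ∈ bins.erase a, b.length = l.length ∧ dot l b ≤ L ∧ dot w b ≤ D :=
    fun b hb' => hb b (List.mem_of_mem_erase hb')
  have hrl : ((bins.erase a).foldr addV (List.replicate l.length 0)).length = l.length :=
    length_foldr (fun b hb' => (hrest b hb').1)
  have hal : a.length = l.length := hlen a ha
  have hsub : subV r a = (bins.erase a).foldr addV (List.replicate l.length 0) := by
    rw [hfold]
    exact subV_addV _ _ (by rw [hal, hrl])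
  have hle : LeV a r := by
    rw [hfold]
    exact leV_addV _ _ (by rw [hal, hrl])
  have hk' : (bins.erase a).length = k := by
    rw [List.length_erase_of_mem ha, hk]; rfl
  have hwneed : dot w r - k * D ≤ dot w a := by
    have h1 : dot w r = dot w a + dot w ((bins.erase a).foldr addV (List.replicate l.length 0)) := by
      rw [hfold]
      exact dot_addV w _ _ (by rw [hal, hw]) (by rw [hrl, hw])
    have h2 := dot_foldr_le l w hw D (bins.erase a) (fun b hb' => ⟨(hrest b hb').1, (hrest b hb').2.2⟩)
    rw [hk'] at h2
    omega
  exact ⟨a, hle, hit, (hb a ha).2.1, hwneed, bins.erase a, hk', hrest, hsub.symm⟩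

/-- The child `x` of a state fails: by a counting bound, or since it decodes from the tree `t`. -/
def childF (l w : List ℕ) (L D k m : ℕ) (t : BT) (x : List ℕ) : Bool :=
  failQuick l w L D k x || (t.find (code x) && (decode m (code x) == x))

/-- One step of the certificate check: the state `r` with `k + 1` bins fails. -/
def stepC (l w : List ℕ) (L D k m : ℕ) (t : BT) (r : List ℕ) : Bool :=
  !(r.all (· == 0)) &&
    allF l w r (fun a => childF l w L D k m t (subV r a)) L (dot w r - k * D) (dot w r)

theorem not_PW_of_failQuick (l w : List ℕ) (L D k : ℕ) (r : List ℕ) (hw : w.length = l.length)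
    (h : failQuick l w L D k r = true) : ¬ PW l w L D k r := by
  simp only [failQuick, Bool.and_eq_true, Bool.not_eq_true', Bool.or_eq_true] at h
  obtain ⟨_, h2⟩ := h
  intro hp
  obtain ⟨h3, h4⟩ := PW_bounds l w L D k r hw hp
  rcases h2 with h2 | h2
  · rw [Nat.ble_eq_true_of_le h3] at h2
    exact Bool.noConfusion h2
  · rw [Nat.ble_eq_true_of_le h4] at h2
    exact Bool.noConfusion h2

/-- All codes of the tree `t` fail with `k` bins. -/
def TreeF (l w : List ℕ) (L D m k : ℕ) (t : BT) : Prop :=
  ∀ c ∈ t.toList, ¬ PW l w L D k (decode m c)

theorem not_PW_of_stepC (l w : List ℕ) (L D k m : ℕ) (hpos : ∀ x ∈ l, 0 < x)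
    (hw : w.length = l.length) (t : BT) (ht : TreeF l w L D m k t) (r : List ℕ)
    (h : stepC l w L D k m t r = true) : ¬ PW l w L D (k + 1) r := by
  simp only [stepC, Bool.and_eq_true, Bool.not_eq_true'] at h
  obtain ⟨h1, h2⟩ := h
  intro hp
  have hz : ¬ r.all (· == 0) = true := by simp [h1]
  obtain ⟨hrlen, a, hle, hit, hcap, hwn, hp2⟩ := PW_step l w L D k r hw hp hz
  have h3 := allF_spec l w hpos r hrlen hw _ L _ h2 a hle hit hcap hwn
  simp only [childF, Bool.or_eq_true, Bool.and_eq_true, beq_iff_eq] at h3
  rcases h3 with h3 | ⟨h3, h4⟩
  · exact not_PW_of_failQuick l w L D k _ hw h3 hp2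
  · have h5 := ht _ (BT.mem_of_find _ _ h3)
    rw [h4] at h5
    exact h5 hp2

theorem treeF_leaf (l w : List ℕ) (L D m k : ℕ) : TreeF l w L D m k .leaf := by
  intro c hc
  simp [BT.toList] at hc

theorem treeF_of_step (l w : List ℕ) (L D k m : ℕ) (hpos : ∀ x ∈ l, 0 < x)
    (hw : w.length = l.length) (t' t : BT) (ht' : TreeF l w L D m k t')
    (h : t.allB (fun c => stepC l w L D k m t' (decode m c)) = true) :
    TreeF l w L D m (k + 1) t := by
  intro c hc
  exact not_PW_of_stepC l w L D k m hpos hw t' ht' _ (BT.all_mem _ _ h c hc)

/-- From a packing to bins of bounded weight, if no bin below `r` has weight above `D`. -/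
theorem PW_of_packable (l w : List ℕ) (L D k : ℕ) (r : List ℕ)
    (hpos : ∀ x ∈ l, 0 < x) (hw : w.length = l.length)
    (hdual : allW l w r (fun _ => false) L (D + 1) (dot w r) = true)
    (h : Packable l L k r) : PW l w L D k r := by
  obtain ⟨bins, hk, hb, hr⟩ := h
  have hlen : ∀ a ∈ bins, a.length = l.length := fun a ha => (hb a ha).1
  have hrlen : r.length = l.length := by rw [← hr]; exact length_foldr hlen
  refine ⟨bins, hk, ?_, hr⟩
  intro a ha
  refine ⟨(hb a ha).1, (hb a ha).2, ?_⟩
  by_contra hlt
  push Not at hlt
  have hperm : bins.Perm (a :: bins.erase a) := List.perm_cons_erase ha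
  have hfold : r = addV a ((bins.erase a).foldr addV (List.replicate l.length 0)) := by
    have := hperm.foldr_eq (f := addV) (List.replicate l.length 0)
    rw [← hr]
    simpa using this
  have hrl : ((bins.erase a).foldr addV (List.replicate l.length 0)).length = l.length :=
    length_foldr (fun b hb' => hlen b (List.mem_of_mem_erase hb'))
  have hle : LeV a r := by
    rw [hfold]
    exact leV_addV _ _ (by rw [hlen a ha, hrl])
  have := allW_spec l w hpos r hrlen hw _ L (D + 1) hdual a hle (hb a ha).2 hlt
  exact Bool.noConfusion this

end Vale.Agent.Lib.P302.Checker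

namespace Vale.Agent.Lib.P302

open Checker

/-- A layered certificate shows that the instance has no packing into `k` bins. -/
theorem not_packsInto_of_treeF (items l w r : List ℕ) (L D k m : ℕ) (t : BT)
    (hL : 0 < L) (hnd : l.Nodup)
    (hpos : ∀ s ∈ l, 0 < s) (hmem : ∀ s ∈ items, s ∈ l) (hw : w.length = l.length)
    (hr : l.map (fun s => items.count s) = r)
    (hdual : allW l w r (fun _ => false) L (D + 1) (dot w r) = true)
    (ht : TreeF l w L D m k t)
    (hroot : t.find (code r) = true) (hdec : decode m (code r) = r) :
    ¬ PacksInto (inst items L) k := by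
  intro h
  have h1 := packable_of_packsInto items l L k hL hnd hmem h
  rw [hr] at h1
  have h2 := PW_of_packable l w L D k r hpos hw hdual h1
  have h3 := ht _ (BT.mem_of_find _ _ hroot)
  rw [hdec] at h3
  exact h3 h2

end Vale.Agent.Lib.P302
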