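import Mathlib
import Vale.Agent.Lib.P302.Checker5

/-!
The fastest certificate checker: bins are enumerated with running values (code of the remaining
state, remaining capacity, weight used), and no lists are built at all.
-/

namespace Vale.Agent.Lib.P302.Checker

/-- Minimum, written with Boolean tests. -/
def minN (a b : ℕ) : ℕ := bif Nat.ble a b then a else b

theorem le_minN {c a b : ℕ} (h1 : c ≤ a) (h2 : c ≤ b) : c ≤ minN a b := by
  unfold minN
  cases h : Nat.ble a b <;> simp [h1, h2]

/-- The code with a running value. -/
def codeAcc (acc : ℕ) (r : List ℕ) : ℕ := r.foldl (fun acc x => acc * 16 + x) acc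

theorem code_eq (r : List ℕ) : code r = codeAcc 0 r := rfl

/-- `q (code of r - a) (cap - dot l a) (wu + dot w a)` for all `a ≤ r` with `dot l a ≤ cap` and
`W ≤ wu + dot w a`; the last argument is `dot w r`. -/
def allA (q : ℕ → ℕ → ℕ → Bool) (W : ℕ) :
    List ℕ → List ℕ → List ℕ → ℕ → ℕ → ℕ → ℕ → Bool
  | _ :: xs, _ :: us, 0 :: ys, acc, cap, wu, rw =>
      allA q W xs us ys (Nat.mul acc 16) cap wu rw
  | x :: xs, u :: us, (y + 1) :: ys, acc, cap, wu, rw =>
      loopAll (fun c =>
        !(Nat.ble W (Nat.add (Nat.add wu (Nat.mul c u)) (Nat.sub rw (Nat.mul (y + 1) u)))) ||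
          allA q W xs us ys (Nat.add (Nat.mul acc 16) (Nat.sub (y + 1) c)) (Nat.sub cap (Nat.mul c x))
            (Nat.add wu (Nat.mul c u)) (Nat.sub rw (Nat.mul (y + 1) u)))
        (minN (y + 1) (Nat.div cap x))
  | _, _, _, acc, cap, wu, _ => !(Nat.ble W wu) || q acc cap wu

theorem allA_spec (q : ℕ → ℕ → ℕ → Bool) (W : ℕ) (l w : List ℕ) (hpos : ∀ x ∈ l, 0 < x)
    (r : List ℕ) (hlen : r.length = l.length) (hw : w.length = l.length) (acc cap wu : ℕ)
    (h : allA q W l w r acc cap wu (dot w r) = true) (a : List ℕ) (ha : LeV a r)
    (hcap : dot l a ≤ cap) (hW : W ≤ wu + dot w a) :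
    q (codeAcc acc (subV r a)) (cap - dot l a) (wu + dot w a) = true := by
  induction l generalizing r w acc cap wu a with
  | nil =>
    have hr : r = [] := List.length_eq_zero_iff.mp hlen
    have hw0 : w = [] := List.length_eq_zero_iff.mp hw
    subst hr hw0
    cases ha
    simp only [dot] at hW
    simp only [allA, dot, Bool.or_eq_true, Bool.not_eq_true'] at h
    have g : Nat.ble W wu = true := Nat.ble_eq_true_of_le (by simpa using hW)
    rcases h with h | h
    · rw [g] at h
      exact Bool.noConfusion h
    · simpa [subV, codeAcc, dot] using h
  | cons x xs ih =>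
    cases ha with
    | nil => simp at hlen
    | cons h1 h2 =>
      rename_i c y as ys
      cases w with
      | nil => simp at hw
      | cons u us =>
        simp only [List.length_cons, add_left_inj] at hlen hw
        simp only [dot] at hcap hW
        have hlens : as.length = ys.length := by
          have := h2.length_eq
          exact this
        cases y with
        | zero =>
          have hc : c = 0 := Nat.le_zero.mp h1
          subst hc
          have e2 : dot (u :: us) (0 :: ys) = dot us ys := by simp [dot]
          rw [e2] at h
          simp only [allA] at h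
          have h3 := ih us (fun z hz => hpos z (by simp [hz])) ys hlen hw (Nat.mul acc 16) cap wu h as h2
            (by simpa using hcap) (by simpa using hW)
          have e3 : codeAcc acc (subV (0 :: ys) (0 :: as)) = codeAcc (Nat.mul acc 16) (subV ys as) := by
            simp [subV, codeAcc]
          have e4 : dot (x :: xs) (0 :: as) = dot xs as := by simp [dot]
          have e5 : dot (u :: us) (0 :: as) = dot us as := by simp [dot]
          rw [e3, e4, e5]
          exact h3
        | succ y =>
          have e2 : u * (y + 1) + dot us ys - (y + 1) * u = dot us ys := by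
            have : u * (y + 1) = (y + 1) * u := Nat.mul_comm _ _
            omega
          have e2' : Nat.sub (u * (y + 1) + dot us ys) (Nat.mul (y + 1) u) = dot us ys := e2
          have hdw : dot (u :: us) ((y + 1) :: ys) = u * (y + 1) + dot us ys := rfl
          rw [hdw] at h
          simp only [allA, e2'] at h
          have hx : 0 < x := hpos x (by simp)
          have hc : c ≤ cap / x := by
            rw [Nat.le_div_iff_mul_le hx]
            calc c * x = x * c := by ring
              _ ≤ cap := by omega
          have h3 := loopAll_spec _ _ h c (le_minN h1 hc)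
          have h4 : dot us as ≤ dot us ys := dot_mono us h2
          have g : Nat.ble W (Nat.add (Nat.add wu (Nat.mul c u)) (dot us ys)) = true := by
            have e : u * c = c * u := by ring
            apply Nat.ble_eq_true_of_le
            show W ≤ wu + c * u + dot us ys
            omega
          simp only [g, Bool.not_true, Bool.false_or] at h3
          have e6 : x * c = c * x := by ring
          have e7 : u * c = c * u := by ring
          have h5 := ih us (fun z hz => hpos z (by simp [hz])) ys hlen hw _ _ _ h3 as h2
            (by show dot xs as ≤ cap - c * x; omega)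
            (by show W ≤ wu + c * u + dot us as; omega)
          have e3 : codeAcc acc (subV ((y + 1) :: ys) (c :: as)) =
              codeAcc (Nat.add (Nat.mul acc 16) (Nat.sub (y + 1) c)) (subV ys as) := by
            simp [subV, codeAcc]
          have e4 : Nat.sub cap (Nat.mul c x) - dot xs as = cap - dot (x :: xs) (c :: as) := by
            show cap - c * x - dot xs as = cap - (x * c + dot xs as)
            omega
          have e5 : Nat.add wu (Nat.mul c u) + dot us as = wu + dot (u :: us) (c :: as) := by
            show wu + c * u + dot us as = wu + (u * c + dot us as)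
            omega
          rw [e3, ← e4, ← e5]
          exact h5

/-- As `allA`, for `a` that are nonzero at the first nonzero position of `r`. -/
def allB' (q : ℕ → ℕ → ℕ → Bool) (W : ℕ) :
    List ℕ → List ℕ → List ℕ → ℕ → ℕ → ℕ → ℕ → Bool
  | _ :: xs, _ :: us, 0 :: ys, acc, cap, wu, rw =>
      allB' q W xs us ys (Nat.mul acc 16) cap wu rw
  | x :: xs, u :: us, (y + 1) :: ys, acc, cap, wu, rw =>
      loopAll1 (fun c =>
        !(Nat.ble W (Nat.add (Nat.add wu (Nat.mul c u)) (Nat.sub rw (Nat.mul (y + 1) u)))) ||
          allA q W xs us ys (Nat.add (Nat.mul acc 16) (Nat.sub (y + 1) c)) (Nat.sub cap (Nat.mul c x))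
            (Nat.add wu (Nat.mul c u)) (Nat.sub rw (Nat.mul (y + 1) u)))
        (minN (y + 1) (Nat.div cap x))
  | _, _, _, _, _, _, _ => true

theorem allB'_spec (q : ℕ → ℕ → ℕ → Bool) (W : ℕ) (l w : List ℕ) (hpos : ∀ x ∈ l, 0 < x)
    (r : List ℕ) (hlen : r.length = l.length) (hw : w.length = l.length) (acc cap wu : ℕ)
    (h : allB' q W l w r acc cap wu (dot w r) = true) (a : List ℕ) (ha : LeV a r)
    (hit : hitsFirst a r = true) (hcap : dot l a ≤ cap) (hW : W ≤ wu + dot w a) :
    q (codeAcc acc (subV r a)) (cap - dot l a) (wu + dot w a) = true := by
  induction l generalizing r w acc cap wu a with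
  | nil =>
    have hr : r = [] := List.length_eq_zero_iff.mp hlen
    subst hr
    cases ha
    simp [hitsFirst] at hit
  | cons x xs ih =>
    cases ha with
    | nil => simp at hlen
    | cons h1 h2 =>
      rename_i c y as ys
      cases w with
      | nil => simp at hw
      | cons u us =>
        simp only [List.length_cons, add_left_inj] at hlen hw
        simp only [dot] at hcap hW
        cases y with
        | zero =>
          have hc : c = 0 := Nat.le_zero.mp h1
          subst hc
          simp only [hitsFirst, Bool.and_eq_true, beq_self_eq_true, true_and] at hit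
          have e2 : dot (u :: us) (0 :: ys) = dot us ys := by simp [dot]
          rw [e2] at h
          simp only [allB'] at h
          have h3 := ih us (fun z hz => hpos z (by simp [hz])) ys hlen hw (Nat.mul acc 16) cap wu h as h2 hit
            (by simpa using hcap) (by simpa using hW)
          have e3 : codeAcc acc (subV (0 :: ys) (0 :: as)) = codeAcc (Nat.mul acc 16) (subV ys as) := by
            simp [subV, codeAcc]
          have e4 : dot (x :: xs) (0 :: as) = dot xs as := by simp [dot]
          have e5 : dot (u :: us) (0 :: as) = dot us as := by simp [dot]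
          rw [e3, e4, e5]
          exact h3
        | succ y =>
          simp only [hitsFirst, bne_iff_ne, ne_eq] at hit
          have e2 : u * (y + 1) + dot us ys - (y + 1) * u = dot us ys := by
            have : u * (y + 1) = (y + 1) * u := Nat.mul_comm _ _
            omega
          have e2' : Nat.sub (u * (y + 1) + dot us ys) (Nat.mul (y + 1) u) = dot us ys := e2
          have hdw : dot (u :: us) ((y + 1) :: ys) = u * (y + 1) + dot us ys := rfl
          rw [hdw] at h
          simp only [allB', e2'] at h
          have hx : 0 < x := hpos x (by simp)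
          have hc : c ≤ cap / x := by
            rw [Nat.le_div_iff_mul_le hx]
            calc c * x = x * c := by ring
              _ ≤ cap := by omega
          have h3 := loopAll1_spec _ _ h c (by omega) (le_minN h1 hc)
          have h4 : dot us as ≤ dot us ys := dot_mono us h2
          have g : Nat.ble W (Nat.add (Nat.add wu (Nat.mul c u)) (dot us ys)) = true := by
            have e : u * c = c * u := by ring
            apply Nat.ble_eq_true_of_le
            show W ≤ wu + c * u + dot us ys
            omega
          simp only [g, Bool.not_true, Bool.false_or] at h3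
          have e6 : x * c = c * x := by ring
          have e7 : u * c = c * u := by ring
          have h5 := allA_spec q W xs us (fun z hz => hpos z (by simp [hz])) ys hlen hw _ _ _ h3 as h2
            (by show dot xs as ≤ cap - c * x; omega)
            (by show W ≤ wu + c * u + dot us as; omega)
          have e3 : codeAcc acc (subV ((y + 1) :: ys) (c :: as)) =
              codeAcc (Nat.add (Nat.mul acc 16) (Nat.sub (y + 1) c)) (subV ys as) := by
            simp [subV, codeAcc]
          have e4 : Nat.sub cap (Nat.mul c x) - dot xs as = cap - dot (x :: xs) (c :: as) := by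
            show cap - c * x - dot xs as = cap - (x * c + dot xs as)
            omega
          have e5 : Nat.add wu (Nat.mul c u) + dot us as = wu + dot (u :: us) (c :: as) := by
            show wu + c * u + dot us as = wu + (u * c + dot us as)
            omega
          rw [e3, ← e4, ← e5]
          exact h5

theorem codeAcc_snoc (acc : ℕ) (xs : List ℕ) (d : ℕ) :
    codeAcc acc (xs ++ [d]) = codeAcc acc xs * 16 + d := by
  simp [codeAcc, List.foldl_append]

theorem decAux_codeAcc (acc0 : ℕ) (x : List ℕ) (hx : ∀ d ∈ x, d < 16) (tail : List ℕ) :
    decAux x.length (codeAcc acc0 x) tail = x ++ tail := by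
  induction x using List.reverseRecOn generalizing tail with
  | nil => simp [decAux]
  | append_singleton xs d ih =>
    have hd : d < 16 := hx d (by simp)
    have hxs : ∀ e ∈ xs, e < 16 := fun e he => hx e (by simp [he])
    rw [codeAcc_snoc]
    simp only [List.length_append, List.length_cons, List.length_nil, zero_add]
    simp only [decAux]
    have e1 : (codeAcc acc0 xs * 16 + d) / 16 = codeAcc acc0 xs := by omega
    have e2 : (codeAcc acc0 xs * 16 + d) % 16 = d := by omega
    rw [e1, e2, ih hxs]
    simp

theorem decode_code (m : ℕ) (x : List ℕ) (hm : x.length = m) (hx : ∀ d ∈ x, d < 16) :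
    decode m (code x) = x := by
  subst hm
  have := decAux_codeAcc 0 x hx []
  simpa [decode, code_eq] using this

theorem decAux_digits (m c : ℕ) (acc : List ℕ) (hacc : ∀ d ∈ acc, d < 16) :
    ∀ d ∈ decAux m c acc, d < 16 := by
  induction m generalizing c acc with
  | zero => simpa [decAux] using hacc
  | succ m ih =>
    simp only [decAux]
    apply ih
    intro d hd
    rcases List.mem_cons.mp hd with rfl | h
    · exact Nat.mod_lt _ (by norm_num)
    · exact hacc d h

theorem decAux_length (m c : ℕ) (acc : List ℕ) : (decAux m c acc).length = m + acc.length := by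
  induction m generalizing c acc with
  | zero => simp [decAux]
  | succ m ih =>
    simp only [decAux, ih, List.length_cons]
    omega

theorem decode_length (m c : ℕ) : (decode m c).length = m := by
  simp [decode, decAux_length]

theorem decode_digits (m c : ℕ) : ∀ d ∈ decode m c, d < 16 :=
  decAux_digits m c [] (by simp)

theorem dot_subV (l a r : List ℕ) (ha : LeV a r) :
    dot l (subV r a) = dot l r - dot l a := by
  induction l generalizing a r with
  | nil =>
    cases ha <;> simp [dot, subV]
  | cons x xs ih =>
    cases ha with
    | nil => simp [dot, subV]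
    | cons h1 h2 =>
      rename_i c y as ys
      simp only [subV, List.zipWith_cons_cons, dot]
      have h3 := ih as ys h2
      have h4 : dot xs as ≤ dot xs ys := dot_mono xs h2
      simp only [subV] at h3
      rw [h3]
      have h5 : x * (y - c) = x * y - x * c := Nat.mul_sub _ _ _
      have h6 : x * c ≤ x * y := Nat.mul_le_mul_left _ h1
      omega

theorem subV_digits (a r : List ℕ) (ha : LeV a r) (hr : ∀ d ∈ r, d < 16) :
    ∀ d ∈ subV r a, d < 16 := by
  induction ha with
  | nil => simp [subV]
  | cons h1 h2 ih =>
    rename_i c y as ys
    intro d hd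
    simp only [subV, List.zipWith_cons_cons, List.mem_cons] at hd
    rcases hd with rfl | hd
    · have := hr y (by simp)
      omega
    · exact ih (fun e he => hr e (by simp [he])) d hd

theorem subV_length (a r : List ℕ) (ha : LeV a r) : (subV r a).length = r.length := by
  induction ha with
  | nil => simp [subV]
  | cons h1 h2 ih =>
    simp only [subV, List.zipWith_cons_cons, List.length_cons] at ih ⊢
    omega

/-- The leaf test: the remaining state with running values fails with `k` bins. -/
def leafQ (L D k dl dw : ℕ) (t : BT) (acc cap wu : ℕ) : Bool :=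
  !(Nat.ble (Nat.sub dl (Nat.sub L cap)) (Nat.mul k L)) || !(Nat.ble (Nat.sub dw wu) (Nat.mul k D)) ||
    t.find acc

/-- One step of the certificate check: the state `r` with `k + 1` bins fails. -/
def stepQ (l w : List ℕ) (L D k : ℕ) (t : BT) (r : List ℕ) : Bool :=
  !(r.all (· == 0)) &&
    allB' (leafQ L D k (dot l r) (dot w r) t) (Nat.sub (dot w r) (Nat.mul k D)) l w r 0 L 0 (dot w r)

theorem not_PW_of_stepQ (l w : List ℕ) (L D k m : ℕ) (hpos : ∀ x ∈ l, 0 < x)
    (hw : w.length = l.length) (t : BT) (ht : TreeF l w L D m k t) (c : ℕ)
    (hm : m = l.length)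
    (h : stepQ l w L D k t (decode m c) = true) : ¬ PW l w L D (k + 1) (decode m c) := by
  set r := decode m c with hr
  simp only [stepQ, Bool.and_eq_true, Bool.not_eq_true'] at h
  obtain ⟨h1, h2⟩ := h
  intro hp
  have hz : ¬ r.all (· == 0) = true := by simp [h1]
  obtain ⟨hrlen, a, hle, hit, hcap, hwn, hp2⟩ := PW_step l w L D k r hw hp hz
  have h3 := allB'_spec _ _ l w hpos r hrlen hw 0 L 0 h2 a hle hit hcap
    (by rw [zero_add]; exact hwn)
  have hdl := dot_subV l a r hle
  have hdw := dot_subV w a r hle
  have halen := hle.length_eq
  obtain ⟨hb1, hb2⟩ := PW_bounds l w L D k _ hw hp2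
  simp only [leafQ, Bool.or_eq_true, Bool.not_eq_true'] at h3
  rcases h3 with (h3 | h3) | h3
  · have h5 : Nat.sub (dot l r) (Nat.sub L (L - dot l a)) = dot l (subV r a) := by
      rw [hdl]
      show dot l r - (L - (L - dot l a)) = _
      have : L - (L - dot l a) = dot l a := by omega
      rw [this]
    rw [h5] at h3
    have h6 : Nat.ble (dot l (subV r a)) (Nat.mul k L) = true := Nat.ble_eq_true_of_le hb1
    rw [h6] at h3
    exact Bool.noConfusion h3
  · have h5 : Nat.sub (dot w r) (0 + dot w a) = dot w (subV r a) := by
      rw [hdw, zero_add]
      rfl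
    rw [h5] at h3
    have h6 : Nat.ble (dot w (subV r a)) (Nat.mul k D) = true := Nat.ble_eq_true_of_le hb2
    rw [h6] at h3
    exact Bool.noConfusion h3
  · have h5 := ht _ (BT.mem_of_find _ _ h3)
    have h6 : decode m (codeAcc 0 (subV r a)) = subV r a := by
      have := decode_code m (subV r a) (by rw [subV_length a r hle, hr, decode_length])
        (subV_digits a r hle (decode_digits m c))
      simpa [code_eq] using this
    rw [h6] at h5
    exact h5 hp2

theorem BT.allB_node {p : ℕ → Bool} {a b : BT} {c : ℕ} (h1 : a.allB p = true) (h2 : p c = true)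
    (h3 : b.allB p = true) : (BT.node a c b).allB p = true := by
  simp [BT.allB, h1, h2, h3]

theorem treeF_of_stepQ (l w : List ℕ) (L D k m : ℕ) (hpos : ∀ x ∈ l, 0 < x)
    (hw : w.length = l.length) (hm : m = l.length) (t' t : BT) (ht' : TreeF l w L D m k t')
    (h : t.allB (fun c => stepQ l w L D k t' (decode m c)) = true) :
    TreeF l w L D m (k + 1) t := by
  intro c hc
  exact not_PW_of_stepQ l w L D k m hpos hw t' ht' c hm (BT.all_mem _ _ h c hc)

end Vale.Agent.Lib.P302.Checker
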