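import Mathlib
import Vale.Agent.Lib.P302.Defs
import Vale.Agent.Lib.P302.Bridge

/-!
The value of the configuration LP: the volume lower bound and explicit primal witnesses.
-/

namespace Vale.Agent.Lib.P302

/-- The list sum as a sum over distinct sizes. -/
theorem sum_eq_sum_count (I : List ℚ) :
    I.sum = ∑ σ : sizeSet I, (σ : ℚ) * ((I.count (σ : ℚ) : ℕ) : ℚ) := by
  have h := Finset.sum_list_map_count I (fun q : ℚ => q)
  simp only [List.map_id'] at h
  rw [h]
  unfold sizeSet
  rw [← Finset.sum_coe_sort]
  refine Finset.sum_congr rfl ?_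
  intro σ _
  simp [mul_comm]

/-- Volume lower bound: every feasible point has value at least the total size. -/
theorem volume_le_value (I : List ℚ) (hpos : ∀ a ∈ I, 0 ≤ a) (z : (sizeSet I → ℕ) →₀ ℝ)
    (hz : IsLPFeasible I z) : ((I.sum : ℚ) : ℝ) ≤ z.sum (fun _ w => w) := by
  obtain ⟨h0, hcfg, hcov⟩ := hz
  have hσ : ∀ σ : sizeSet I, (0 : ℝ) ≤ ((σ : ℚ) : ℝ) := by
    intro σ
    have : (σ : ℚ) ∈ I := by simpa [sizeSet] using σ.2
    exact_mod_cast hpos _ this
  have h1 : ((I.sum : ℚ) : ℝ) = ∑ σ : sizeSet I, ((σ : ℚ) : ℝ) * ((I.count (σ : ℚ) : ℕ) : ℝ) := by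
    rw [sum_eq_sum_count]
    push_cast
    rfl
  rw [h1]
  calc ∑ σ : sizeSet I, ((σ : ℚ) : ℝ) * ((I.count (σ : ℚ) : ℕ) : ℝ)
      ≤ ∑ σ : sizeSet I, ((σ : ℚ) : ℝ) * z.sum (fun c w => (c σ : ℝ) * w) := by
        refine Finset.sum_le_sum ?_
        intro σ _
        exact mul_le_mul_of_nonneg_left (hcov σ) (hσ σ)
    _ = ∑ c ∈ z.support, z c * ∑ σ : sizeSet I, ((σ : ℚ) : ℝ) * (c σ : ℝ) := by
        simp only [Finsupp.sum, Finset.mul_sum]
        rw [Finset.sum_comm]
        refine Finset.sum_congr rfl ?_
        intro c _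
        refine Finset.sum_congr rfl ?_
        intro σ _
        ring
    _ ≤ ∑ c ∈ z.support, z c * 1 := by
        refine Finset.sum_le_sum ?_
        intro c hc
        have hne : z c ≠ 0 := Finsupp.mem_support_iff.mp hc
        refine mul_le_mul_of_nonneg_left ?_ (h0 c)
        have := hcfg c hne
        unfold IsConfiguration at this
        have h2 : ((∑ σ : sizeSet I, (σ : ℚ) * (c σ : ℚ) : ℚ) : ℝ) ≤ ((1 : ℚ) : ℝ) := by
          exact_mod_cast this
        push_cast at h2
        exact h2
    _ = z.sum (fun _ w => w) := by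
        simp [Finsupp.sum]

section witness

variable (items : List ℕ) (L D : ℕ)

/-- The configuration given by a list of item sizes. -/
noncomputable def cfgOf (p : List ℕ) : sizeSet (inst items L) → ℕ :=
  fun σ => (inst p L).count (σ : ℚ)

/-- The weighted sum of configurations given by a list of patterns. -/
noncomputable def zOf : List (List ℕ × ℕ) → ((sizeSet (inst items L) → ℕ) →₀ ℝ)
  | [] => 0
  | t :: W => Finsupp.single (cfgOf items L t.1) ((t.2 : ℝ) / D) + zOf W

theorem zOf_nonneg (W : List (List ℕ × ℕ)) (c) : 0 ≤ zOf items L D W c := by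
  induction W with
  | nil => simp [zOf]
  | cons t W ih =>
    simp only [zOf, Finsupp.add_apply]
    refine add_nonneg ?_ ih
    rw [Finsupp.single_apply]
    split_ifs
    · positivity
    · exact le_rfl

theorem zOf_ne_zero (W : List (List ℕ × ℕ)) (c) (h : zOf items L D W c ≠ 0) :
    ∃ t ∈ W, c = cfgOf items L t.1 := by
  induction W with
  | nil => simp [zOf] at h
  | cons t W ih =>
    simp only [zOf, Finsupp.add_apply] at h
    by_cases hc : cfgOf items L t.1 = c
    · exact ⟨t, by simp, hc.symm⟩
    · rw [Finsupp.single_eq_of_ne (Ne.symm hc), zero_add] at h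
      obtain ⟨t', ht', h'⟩ := ih h
      exact ⟨t', by simp [ht'], h'⟩

theorem zOf_sum_total (W : List (List ℕ × ℕ)) :
    (zOf items L D W).sum (fun _ w => w) = (((W.map (·.2)).sum : ℕ) : ℝ) / D := by
  induction W with
  | nil => simp [zOf]
  | cons t W ih =>
    simp only [zOf, List.map_cons, List.sum_cons]
    rw [Finsupp.sum_add_index' (by simp) (by simp), ih, Finsupp.sum_single_index (by simp)]
    push_cast
    ring

theorem zOf_sum_cov (W : List (List ℕ × ℕ)) (σ : sizeSet (inst items L)) :
    (zOf items L D W).sum (fun c w => (c σ : ℝ) * w) =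
      (((W.map (fun t => (cfgOf items L t.1 σ) * t.2)).sum : ℕ) : ℝ) / D := by
  induction W with
  | nil => simp [zOf]
  | cons t W ih =>
    simp only [zOf, List.map_cons, List.sum_cons]
    rw [Finsupp.sum_add_index' (by simp) (by intros; ring), ih, Finsupp.sum_single_index (by simp)]
    push_cast
    ring

end witness

theorem count_inst (p : List ℕ) (L : ℕ) (hL : 0 < L) (s : ℕ) :
    (inst p L).count ((s : ℚ) / L) = p.count s := by
  have hinj : Function.Injective (fun n : ℕ => (n : ℚ) / L) := by
    intro a b hab
    have hLq : (L : ℚ) ≠ 0 := by exact_mod_cast hL.ne'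
    have : (a : ℚ) = b := by
      simpa [div_left_inj' hLq] using hab
    exact_mod_cast this
  unfold inst
  exact List.count_map_of_injective _ _ hinj _

theorem sum_inst (p : List ℕ) (L : ℕ) : (inst p L).sum = (p.sum : ℚ) / L := by
  induction p with
  | nil => simp [inst]
  | cons x xs ih =>
    simp only [inst, List.map_cons, List.sum_cons] at ih ⊢
    rw [ih]
    push_cast
    ring

/-- Explicit evaluation of the LP of an instance: if the explicit patterns cover all items and their
total weight equals the volume of the instance, then the LP value is the volume. -/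
theorem lpValue_inst (items : List ℕ) (L D : ℕ) (W : List (List ℕ × ℕ)) (hL : 0 < L) (hD : 0 < D)
    (hW1 : ∀ t ∈ W, t.1.sum ≤ L ∧ ∀ s ∈ t.1, s ∈ items)
    (hW2 : ∀ s ∈ items, items.count s * D ≤ (W.map (fun t => t.1.count s * t.2)).sum)
    (hW3 : (W.map (·.2)).sum * L = items.sum * D) :
    lpValue (inst items L) = ((items.sum : ℕ) : ℝ) / L := by
  have hLr : (0 : ℝ) < L := by exact_mod_cast hL
  have hDr : (0 : ℝ) < D := by exact_mod_cast hD
  have hLq : (0 : ℚ) < L := by exact_mod_cast hL
  have hpos : ∀ a ∈ inst items L, 0 ≤ a := by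
    intro a ha
    simp only [inst, List.mem_map] at ha
    obtain ⟨n, _, rfl⟩ := ha
    positivity
  have hvol : (((inst items L).sum : ℚ) : ℝ) = ((items.sum : ℕ) : ℝ) / L := by
    rw [sum_inst, Rat.cast_div, Rat.cast_natCast, Rat.cast_natCast]
  -- the witness is feasible
  have hfeas : IsLPFeasible (inst items L) (zOf items L D W) := by
    refine ⟨fun c => zOf_nonneg items L D W c, ?_, ?_⟩
    · intro c hc
      obtain ⟨t, ht, rfl⟩ := zOf_ne_zero items L D W c hc
      unfold IsConfiguration cfgOf
      obtain ⟨h1, h2⟩ := hW1 t ht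
      -- sum over all sizes equals the sum of the pattern
      have h3 : (inst t.1 L).sum = ∑ σ : sizeSet (inst items L), (σ : ℚ) * (((inst t.1 L).count (σ : ℚ) : ℕ) : ℚ) := by
        have h := Finset.sum_list_map_count (inst t.1 L) (fun q : ℚ => q)
        simp only [List.map_id'] at h
        rw [h]
        have hsub : (inst t.1 L).toFinset ⊆ sizeSet (inst items L) := by
          intro q hq
          simp only [List.mem_toFinset, inst, List.mem_map] at hq
          obtain ⟨n, hn, rfl⟩ := hq
          simp only [sizeSet, inst, List.mem_toFinset, List.mem_map]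
          exact ⟨n, h2 n hn, rfl⟩
        rw [Finset.sum_subset hsub]
        · rw [← Finset.sum_coe_sort]
          refine Finset.sum_congr rfl ?_
          intro σ _
          simp [mul_comm]
        · intro q _ hq
          have : (inst t.1 L).count q = 0 := by
            rw [List.count_eq_zero]
            intro hm
            exact hq (List.mem_toFinset.mpr hm)
          simp [this]
      rw [← h3, sum_inst, div_le_one hLq]
      exact_mod_cast h1
    · intro σ
      rw [zOf_sum_cov]
      obtain ⟨s, hs, hσ⟩ : ∃ s ∈ items, (σ : ℚ) = (s : ℚ) / L := by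
        have := σ.2
        simp only [sizeSet, inst, List.mem_toFinset, List.mem_map] at this
        obtain ⟨n, hn, h⟩ := this
        exact ⟨n, hn, h.symm⟩
      have h4 := hW2 s hs
      rw [le_div_iff₀ hDr]
      have h5 : (W.map (fun t => (cfgOf items L t.1 σ) * t.2)) = W.map (fun t => t.1.count s * t.2) := by
        refine List.map_congr_left ?_
        intro t _
        simp only [cfgOf, hσ, count_inst _ _ hL]
      rw [h5, hσ, count_inst _ _ hL]
      exact_mod_cast h4
  -- value of the witness
  have hval : (zOf items L D W).sum (fun _ w => w) = ((items.sum : ℕ) : ℝ) / L := by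
    rw [zOf_sum_total, div_eq_div_iff hDr.ne' hLr.ne']
    exact_mod_cast hW3
  unfold lpValue
  apply le_antisymm
  · apply csInf_le
    · refine ⟨((inst items L).sum : ℝ), ?_⟩
      rintro v ⟨z, hz, rfl⟩
      exact volume_le_value _ hpos z hz
    · exact ⟨_, hfeas, hval.symm⟩
  · apply le_csInf
    · exact ⟨_, _, hfeas, rfl⟩
    · rintro v ⟨z, hz, rfl⟩
      rw [← hvol]
      exact volume_le_value _ hpos z hz

/-- Upper bound on the LP of an instance from explicit fractional patterns. -/
theorem lpValue_inst_le (items : List ℕ) (L D : ℕ) (W : List (List ℕ × ℕ)) (hL : 0 < L) (hD : 0 < D)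
    (hW1 : ∀ t ∈ W, t.1.sum ≤ L ∧ ∀ s ∈ t.1, s ∈ items)
    (hW2 : ∀ s ∈ items, items.count s * D ≤ (W.map (fun t => t.1.count s * t.2)).sum) :
    lpValue (inst items L) ≤ (((W.map (·.2)).sum : ℕ) : ℝ) / D := by
  have hDr : (0 : ℝ) < D := by exact_mod_cast hD
  have hLq : (0 : ℚ) < L := by exact_mod_cast hL
  have hpos : ∀ a ∈ inst items L, 0 ≤ a := by
    intro a ha
    simp only [inst, List.mem_map] at ha
    obtain ⟨n, _, rfl⟩ := ha
    positivity
  have hfeas : IsLPFeasible (inst items L) (zOf items L D W) := by
    refine ⟨fun c => zOf_nonneg items L D W c, ?_, ?_⟩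
    · intro c hc
      obtain ⟨t, ht, rfl⟩ := zOf_ne_zero items L D W c hc
      unfold IsConfiguration cfgOf
      obtain ⟨h1, h2⟩ := hW1 t ht
      have h3 : (inst t.1 L).sum = ∑ σ : sizeSet (inst items L), (σ : ℚ) * (((inst t.1 L).count (σ : ℚ) : ℕ) : ℚ) := by
        have h := Finset.sum_list_map_count (inst t.1 L) (fun q : ℚ => q)
        simp only [List.map_id'] at h
        rw [h]
        have hsub : (inst t.1 L).toFinset ⊆ sizeSet (inst items L) := by
          intro q hq
          simp only [List.mem_toFinset, inst, List.mem_map] at hq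
          obtain ⟨n, hn, rfl⟩ := hq
          simp only [sizeSet, inst, List.mem_toFinset, List.mem_map]
          exact ⟨n, h2 n hn, rfl⟩
        rw [Finset.sum_subset hsub]
        · rw [← Finset.sum_coe_sort]
          refine Finset.sum_congr rfl ?_
          intro σ _
          simp [mul_comm]
        · intro q _ hq
          have : (inst t.1 L).count q = 0 := by
            rw [List.count_eq_zero]
            intro hm
            exact hq (List.mem_toFinset.mpr hm)
          simp [this]
      rw [← h3, sum_inst, div_le_one hLq]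
      exact_mod_cast h1
    · intro σ
      rw [zOf_sum_cov]
      obtain ⟨s, hs, hσ⟩ : ∃ s ∈ items, (σ : ℚ) = (s : ℚ) / L := by
        have := σ.2
        simp only [sizeSet, inst, List.mem_toFinset, List.mem_map] at this
        obtain ⟨n, hn, h⟩ := this
        exact ⟨n, hn, h.symm⟩
      have h4 := hW2 s hs
      rw [le_div_iff₀ hDr]
      have h5 : (W.map (fun t => (cfgOf items L t.1 σ) * t.2)) = W.map (fun t => t.1.count s * t.2) := by
        refine List.map_congr_left ?_
        intro t _
        simp only [cfgOf, hσ, count_inst _ _ hL]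
      rw [h5, hσ, count_inst _ _ hL]
      exact_mod_cast h4
  have hval : (zOf items L D W).sum (fun _ w => w) = (((W.map (·.2)).sum : ℕ) : ℝ) / D := zOf_sum_total items L D W
  unfold lpValue
  apply csInf_le
  · refine ⟨((inst items L).sum : ℝ), ?_⟩
    rintro v ⟨z, hz, rfl⟩
    exact volume_le_value _ hpos z hz
  · exact ⟨_, hfeas, hval.symm⟩

end Vale.Agent.Lib.P302
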