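import Mathlib
import Vale.Agent.Lib.P302.Defs
import Vale.Agent.Lib.P302.Bridge
import Vale.Agent.Lib.P302.LP

/-!
An upper bound for the configuration LP from explicit patterns.
-/

namespace Vale.Agent.Lib.P302

/-- Explicit patterns, with weights over `D`, that cover all items give an upper bound for the LP
value of the instance. -/
theorem lpValue_le_inst (items : List ℕ) (L D : ℕ) (W : List (List ℕ × ℕ)) (hL : 0 < L) (hD : 0 < D)
    (hW1 : ∀ t ∈ W, t.1.sum ≤ L ∧ ∀ s ∈ t.1, s ∈ items)
    (hW2 : ∀ s ∈ items, items.count s * D ≤ (W.map (fun t => t.1.count s * t.2)).sum) :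
    lpValue (inst items L) ≤ (((W.map (·.2)).sum : ℕ) : ℝ) / D := by
  have hDr : (0 : ℝ) < D := by exact_mod_cast hD
  have hLq : (0 : ℚ) < L := by exact_mod_cast hL
  have hpos : ∀ a ∈ inst items L, 0 ≤ a := by
    intro a ha
    simp only [inst, List.mem_map] at ha
    obtain ⟨n, _, rfl⟩ := ha
    positivity
  -- the witness is feasible
  have hfeas : IsLPFeasible (inst items L) (zOf items L D W) := by
    refine ⟨fun c => zOf_nonneg items L D W c, ?_, ?_⟩
    · intro c hc
      obtain ⟨t, ht, rfl⟩ := zOf_ne_zero items L D W c hc
      unfold IsConfiguration cfgOf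
      obtain ⟨h1, h2⟩ := hW1 t ht
      have h3 : (inst t.1 L).sum = ∑ σ : sizeSet (inst items L), (σ : ℚ) * (((inst t.1 L).count (σ : ℚ) : ℕ) : ℚ) := by
        have h := Finset.sum_list_map_count (inst t.1 L) (fun q : ℚ => q)
        simp only [List.map_id'] at h
        rw [h]
        have hsub : (inst t.1 L).toFinset ⊆ sizeSet (inst items L) := by
          intro q hq
          simp only [List.mem_toFinset, inst, List.mem_map] at hq
          obtain ⟨n, hn, rfl⟩ := hq
          simp only [sizeSet, inst, List.mem_toFinset, List.mem_map]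
          exact ⟨n, h2 n hn, rfl⟩
        rw [Finset.sum_subset hsub]
        · rw [← Finset.sum_coe_sort]
          refine Finset.sum_congr rfl ?_
          intro σ _
          simp [mul_comm]
        · intro q _ hq
          have : (inst t.1 L).count q = 0 := by
            rw [List.count_eq_zero]
            intro hm
            exact hq (List.mem_toFinset.mpr hm)
          simp [this]
      rw [← h3, sum_inst, div_le_one hLq]
      exact_mod_cast h1
    · intro σ
      rw [zOf_sum_cov]
      obtain ⟨s, hs, hσ⟩ : ∃ s ∈ items, (σ : ℚ) = (s : ℚ) / L := by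
        have := σ.2
        simp only [sizeSet, inst, List.mem_toFinset, List.mem_map] at this
        obtain ⟨n, hn, h⟩ := this
        exact ⟨n, hn, h.symm⟩
      have h4 := hW2 s hs
      rw [le_div_iff₀ hDr]
      have h5 : (W.map (fun t => (cfgOf items L t.1 σ) * t.2)) = W.map (fun t => t.1.count s * t.2) := by
        refine List.map_congr_left ?_
        intro t _
        simp only [cfgOf, hσ, count_inst _ _ hL]
      rw [h5, hσ, count_inst _ _ hL]
      exact_mod_cast h4
  unfold lpValue
  apply csInf_le
  · refine ⟨((inst items L).sum : ℝ), ?_⟩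
    rintro v ⟨z, hz, rfl⟩
    exact volume_le_value _ hpos z hz
  · exact ⟨_, hfeas, (zOf_sum_total items L D W).symm⟩

end Vale.Agent.Lib.P302
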